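import Crest.Agent.R294.Induct
import Crest.Prelude.Def_TwoWay

/-!
Behaviours of two-way automata and the lower bound for liveness.
-/

set_option autoImplicit false
open Computability

namespace Crest.Agent.R294

universe u v

open Ori Crest.TwoWay

/-- behaviours under the star product -/
def Beh {K : Type*} [KleeneAlgebra K] (_O : Ori K) : Type _ := K

instance {K : Type*} [KleeneAlgebra K] (O : Ori K) : Monoid (Beh O) where
  mul := O.st
  one := (1 : K)
  mul_assoc := O.st_assoc
  one_mul := O.one_st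
  mul_one := O.st_one

instance {L : Type u} [Finite L] (O : Ori (Rl L)) : Finite (Beh O) :=
  inferInstanceAs (Finite (Rl L))

theorem Ori.st_through {K : Type*} [KleeneAlgebra K] (O : Ori K) {x : K} (y : K)
    (hb : O.b x = 0) (hc : O.c x = 0) (hd : O.d x ≤ 1) : O.st x y ≤ x * y + y := by
  have h1 := O.a_le x
  have h2 := O.a_le y
  have h3 := O.b_le y
  have h4 := O.c_le y
  have h5 := O.d_le y
  unfold Ori.st
  simp only [hb, hc, mul_zero, zero_mul, kstar_zero, one_mul, zero_add, add_zero]
  refine add_le (add_le (add_le ?_ ?_) ?_) ?_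
  · exact le_trans (by gcongr) le_self_add
  · refine le_trans ?_ le_self_add
    calc O.a x * (O.b y * O.d x) ≤ x * (y * 1) := by gcongr
      _ = x * y := by rw [mul_one]
  · exact h4.trans le_add_self
  · refine le_trans ?_ le_add_self
    calc O.d y * O.d x ≤ y * 1 := by gcongr
      _ = y := by rw [mul_one]

/-- labels: direction of motion and state (`none` is the accepted sink) -/
abbrev Lab (σ : Type u) : Type u := Bool × Option σ

/-- the orientation of labels -/
def ori (σ : Type u) : Ori (Rl (Lab σ)) where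
  P := Rl.diag {p | p.1 = true}
  N := Rl.diag {p | p.1 = false}
  PP := Rl.diag_mul_diag _
  NN := Rl.diag_mul_diag _
  PN := by
    ext p q
    rw [Rl.diag_mul, Rl.diag_def, Rl.zero_def]
    rcases p with ⟨_ | _, p⟩ <;> simp
  NP := by
    ext p q
    rw [Rl.diag_mul, Rl.diag_def, Rl.zero_def]
    rcases p with ⟨_ | _, p⟩ <;> simp
  add := by
    ext p q
    rw [Rl.add_def, Rl.diag_def, Rl.diag_def, Rl.one_def]
    rcases p with ⟨_ | _, p⟩ <;> simp

variable {α : Type v} {σ : Type u}

theorem pos_iff (p : Lab σ) : (ori σ).pos p ↔ p.1 = true :=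
  ⟨fun h => h.2, fun h => ⟨rfl, h⟩⟩
theorem neg_iff' (p : Lab σ) : (ori σ).neg p ↔ p.1 = false :=
  ⟨fun h => h.2, fun h => ⟨rfl, h⟩⟩

/-- the accepted sink -/
def om (σ : Type u) : Lab σ := (true, none)

theorem om_pos : (ori σ).pos (om σ) := (pos_iff _).2 rfl

variable (M : TwoWayNFA α σ)

/-- stay moves through non-accepting states -/
def StayR (c : Cell α) : σ → σ → Prop :=
  Relation.ReflTransGen fun s s' => s ∉ M.accept ∧ (s', HeadMove.stay) ∈ M.step s c

/-- the exits from a state -/
def Exit (c : Cell α) (s : σ) (q : Lab σ) : Prop :=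
  (s ∈ M.accept ∧ q = om σ) ∨ (s ∉ M.accept ∧ ∃ s',
    ((s', HeadMove.moveRight) ∈ M.step s c ∧ q = (true, some s')) ∨
    ((s', HeadMove.moveLeft) ∈ M.step s c ∧ q = (false, some s')))

/-- the behaviour of one cell -/
def cellB (c : Cell α) : Rl (Lab σ) := fun p q =>
  (p = om σ ∧ q = om σ) ∨ ∃ s s', p.2 = some s ∧ StayR M c s s' ∧ Exit M c s' q

/-- the probe for a state inside a cell -/
def probe (c : Cell α) (s : σ) : Rl (Lab σ) := fun p q =>
  q = om σ ∧ ∃ s0, p.2 = some s0 ∧ StayR M c s0 s

theorem cellB_om (c : Cell α) : cellB M c (om σ) (om σ) := Or.inl ⟨rfl, rfl⟩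

theorem cellB_from_om {c : Cell α} {q : Lab σ} (h : cellB M c (om σ) q) : q = om σ := by
  rcases h with h | ⟨s, _, h, -⟩
  · exact h.2
  · cases h

theorem probe_acc {c : Cell α} {s : σ} (hs : s ∈ M.accept) : probe M c s ≤ cellB M c := by
  rintro p q ⟨rfl, s0, h1, h2⟩
  exact Or.inr ⟨s0, s, h1, h2, Or.inl ⟨hs, rfl⟩⟩

theorem probe_stay {c : Cell α} {s s' : σ} (hs : s ∉ M.accept)
    (h : (s', HeadMove.stay) ∈ M.step s c) : probe M c s ≤ probe M c s' := by
  rintro p q ⟨rfl, s0, h1, h2⟩
  exact ⟨rfl, s0, h1, h2.tail ⟨hs, h⟩⟩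

theorem probe_right {c c' : Cell α} {s s' : σ} (hs : s ∉ M.accept)
    (h : (s', HeadMove.moveRight) ∈ M.step s c) :
    (ori σ).st (cellB M c + probe M c s) (cellB M c') ≤
      (ori σ).st (cellB M c) (cellB M c' + probe M c' s') := by
  set x : Rl (Lab σ) := 1 + EE (true, some s') (om σ) with hx
  have h1 : cellB M c + probe M c s ≤ (ori σ).st (cellB M c) x := by
    apply add_le
    · conv_lhs => rw [← (ori σ).st_one (cellB M c)]
      gcongr; exact le_self_add
    · rintro p q ⟨rfl, s0, h1, h2⟩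
      have h3 : cellB M c p (true, some s') :=
        Or.inr ⟨s0, s, h1, h2, Or.inr ⟨hs, s', Or.inl ⟨h, rfl⟩⟩⟩
      have h4 : x (true, some s') (om σ) := Or.inr ⟨rfl, rfl⟩
      rcases (ori σ).pos_or_neg p with hp | hp
      · exact (ori σ).st_of_pos hp ((pos_iff _).2 rfl) om_pos h3 h4
      · exact (ori σ).st_of_dca hp hp ((pos_iff _).2 rfl) om_pos (Or.inl rfl) h3 h4
  have h2 : (ori σ).st x (cellB M c') ≤ cellB M c' + probe M c' s' := by
    refine ((ori σ).st_through _ ?_ ?_ ?_).trans (add_le ?_ le_self_add)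
    · ext p q
      rw [b_iff, pos_iff, neg_iff', Rl.zero_def, iff_false]
      rintro ⟨h1, rfl | ⟨rfl, rfl⟩, h3⟩
      · rw [h1] at h3; cases h3
      · cases h3
    · ext p q
      rw [c_iff, pos_iff, neg_iff', Rl.zero_def, iff_false]
      rintro ⟨h1, rfl | ⟨rfl, rfl⟩, h3⟩
      · rw [h1] at h3; cases h3
      · cases h1
    · intro p q
      rw [d_iff, neg_iff', neg_iff']
      rintro ⟨h1, rfl | ⟨rfl, rfl⟩, h3⟩
      · rfl
      · cases h1
    · rintro p q ⟨m, rfl | ⟨rfl, rfl⟩, h3⟩
      · exact Or.inl h3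
      · exact Or.inr ⟨cellB_from_om M h3, s', rfl, Relation.ReflTransGen.refl⟩
  calc _ ≤ (ori σ).st ((ori σ).st (cellB M c) x) (cellB M c') := by gcongr
    _ ≤ _ := by rw [st_assoc]; gcongr

theorem probe_left {c c' : Cell α} {s s' : σ} (hs : s ∉ M.accept)
    (h : (s', HeadMove.moveLeft) ∈ M.step s c) :
    (ori σ).st (cellB M c') (cellB M c + probe M c s) ≤
      (ori σ).st (cellB M c' + probe M c' s') (cellB M c) := by
  set E : Rl (Lab σ) := EE (false, some s') (om σ) with hE
  have h1 : cellB M c + probe M c s ≤ (ori σ).st (1 + (ori σ).c E) (cellB M c) := by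
    apply add_le
    · conv_lhs => rw [← (ori σ).one_st (cellB M c)]
      gcongr; exact le_self_add
    · rintro p q ⟨rfl, s0, h1, h2⟩
      have h3 : cellB M c p (false, some s') :=
        Or.inr ⟨s0, s, h1, h2, Or.inr ⟨hs, s', Or.inr ⟨h, rfl⟩⟩⟩
      have h4 : (1 + (ori σ).c E) (false, some s') (om σ) :=
        Or.inr (((ori σ).c_iff _ _ _).2 ⟨(neg_iff' _).2 rfl, ⟨rfl, rfl⟩, om_pos⟩)
      rcases (ori σ).pos_or_neg p with hp | hp
      · exact (ori σ).st_of_abca hp hp ((neg_iff' _).2 rfl) om_pos om_pos (Or.inl rfl) h3 h4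
          (cellB_om M c)
      · exact (ori σ).st_of_dca hp ((neg_iff' _).2 rfl) om_pos om_pos h3 h4 (cellB_om M c)
  have h2 : (ori σ).st (cellB M c') (1 + (ori σ).c E) ≤ cellB M c' + probe M c' s' := by
    rw [st_cap]
    refine add_le le_self_add (le_trans ((ori σ).c_le E) (le_trans ?_ le_add_self))
    rintro p q ⟨rfl, rfl⟩
    exact ⟨rfl, s', rfl, Relation.ReflTransGen.refl⟩
  calc _ ≤ (ori σ).st (cellB M c') ((ori σ).st (1 + (ori σ).c E) (cellB M c)) := by gcongr
    _ ≤ _ := by rw [← st_assoc]; gcongr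

/-- the behaviour of a segment of the tape -/
def seg (f : ℕ → Rl (Lab σ)) : ℕ → ℕ → Rl (Lab σ)
  | _, 0 => 1
  | a, k + 1 => (ori σ).st (f a) (seg f (a + 1) k)

theorem seg_add (f : ℕ → Rl (Lab σ)) (a k l : ℕ) :
    seg f a (k + l) = (ori σ).st (seg f a k) (seg f (a + k) l) := by
  induction k generalizing a with
  | zero => simp only [zero_add, add_zero, seg, one_st]
  | succ k ih =>
    rw [show k + 1 + l = (k + l) + 1 by ring, seg, seg, ih, st_assoc,
      show a + 1 + k = a + (k + 1) by ring]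

theorem seg_succ (f : ℕ → Rl (Lab σ)) (a k : ℕ) :
    seg f a (k + 1) = (ori σ).st (seg f a k) (f (a + k)) := by
  rw [seg_add]; simp only [seg, st_one]

theorem seg_om {f : ℕ → Rl (Lab σ)} (hf : ∀ i, f i (om σ) (om σ)) (a k : ℕ) :
    seg f a k (om σ) (om σ) := by
  induction k generalizing a with
  | zero => rfl
  | succ k ih => exact (ori σ).st_loop (hf a) (ih _)

/-- the behaviour of a word -/
def wordB : List α → Rl (Lab σ)
  | [] => 1
  | a :: w => (ori σ).st (cellB M (Cell.letter a)) (wordB w)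

theorem wordB_append (u v : List α) : wordB M (u ++ v) = (ori σ).st (wordB M u) (wordB M v) := by
  induction u with
  | nil => simp only [List.nil_append, wordB, one_st]
  | cons a u ih => simp only [List.cons_append, wordB, ih, st_assoc]

theorem seg_word (f : ℕ → Rl (Lab σ)) (w : List α) (a : ℕ)
    (h : ∀ i (hi : i < w.length), f (a + i) = cellB M (Cell.letter w[i])) :
    seg f a w.length = wordB M w := by
  induction w generalizing a with
  | nil => rfl
  | cons x w ih =>
    rw [List.length_cons, seg, wordB, ih]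
    · congr 1; exact h 0 (by simp)
    · intro i hi
      have := h (i + 1) (by simpa using hi)
      rw [show a + 1 + i = a + (i + 1) by ring, this]; rfl

/-- the behaviour of the whole tape -/
def tapeB (w : List α) : Rl (Lab σ) :=
  (ori σ).st ((ori σ).st (cellB M Cell.leftEnd) (wordB M w)) (cellB M Cell.rightEnd)

theorem tapeB_eq (w : List α) :
    tapeB M w = seg (fun i => cellB M (scan w i)) 0 (w.length + 2) := by
  rw [show w.length + 2 = (w.length + 1) + 1 by ring, seg_succ, seg, seg_word M _ w, tapeB]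
  · simp [scan]
  · intro i hi
    simp [scan, hi]

theorem tape_split (w : List α) {i : ℕ} (hi : i ≤ w.length + 1) :
    tapeB M w = (ori σ).st ((ori σ).st (seg (fun i => cellB M (scan w i)) 0 i)
      (cellB M (scan w i))) (seg (fun i => cellB M (scan w i)) (i + 1) (w.length + 1 - i)) := by
  rw [tapeB_eq, show w.length + 2 = (i + 1) + (w.length + 1 - i) by omega, seg_add, seg_succ,
    zero_add, zero_add]

theorem tape_of_accepts {w : List α} (h : M.Accepts w) :
    tapeB M w (true, some M.start) (om σ) := by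
  obtain ⟨c, hc, hacc⟩ := h
  set f : ℕ → Rl (Lab σ) := fun i => cellB M (scan w i) with hf
  let Inv : σ × ℕ → Prop := fun c => c.2 ≤ w.length + 1 ∧
    (ori σ).st ((ori σ).st (seg f 0 c.2) (f c.2 + probe M (scan w c.2) c.1))
      (seg f (c.2 + 1) (w.length + 1 - c.2)) (true, some M.start) (om σ)
  have hdone : ∀ c, Inv c → c.1 ∈ M.accept → tapeB M w (true, some M.start) (om σ) := by
    rintro ⟨s, i⟩ ⟨h1, h2⟩ h3
    rw [tape_split M w h1]
    rw [(probe_acc M h3).add_eq_left] at h2
    exact h2
  have hinv : Inv c := by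
    clear hacc
    induction hc with
    | refl =>
      refine ⟨Nat.zero_le _, ?_⟩
      simp only [seg, one_st]
      exact (ori σ).st_of_pos ((pos_iff _).2 rfl) om_pos om_pos
        (Or.inr ⟨rfl, M.start, rfl, Relation.ReflTransGen.refl⟩)
        (seg_om (fun i => cellB_om M _) _ _)
    | @tail c d _ hstep ih =>
      obtain ⟨s, i⟩ := c
      obtain ⟨s', j⟩ := d
      obtain ⟨m, hm, hpos⟩ := hstep
      simp only at hm hpos
      have hi : i ≤ w.length + 1 := ih.1
      have hj : j ≤ w.length + 1 := by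
        cases m <;> simp only [movePos] at hpos
        · split_ifs at hpos; cases hpos; omega
        · cases hpos; exact hi
        · split_ifs at hpos; cases hpos; omega
      refine ⟨hj, ?_⟩
      by_cases hs : s ∈ M.accept
      · have := hdone _ ih hs
        rw [tape_split M w hj] at this
        revert this
        apply (ori σ).st_mono _ le_rfl
        gcongr; exact le_self_add
      have ih2 := ih.2
      simp only at ih2 ⊢
      cases m <;> simp only [movePos] at hpos
      · split_ifs at hpos with h0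
        cases hpos
        obtain ⟨k, rfl⟩ := Nat.exists_eq_succ_of_ne_zero h0
        simp only [Nat.succ_eq_add_one, add_tsub_cancel_right] at *
        rw [seg_succ, zero_add, st_assoc _ (seg f 0 k)] at ih2
        rw [show w.length + 1 - k = (w.length + 1 - (k + 1)) + 1 by omega, seg, ← st_assoc,
          st_assoc _ (seg f 0 k)]
        revert ih2
        apply (ori σ).st_mono _ le_rfl
        exact (ori σ).st_mono le_rfl (probe_left M hs hm)
      · cases hpos
        revert ih2
        apply (ori σ).st_mono _ le_rfl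
        gcongr
        exact probe_stay M hs hm
      · split_ifs at hpos with h0
        cases hpos
        rw [show w.length + 1 - i = (w.length + 1 - (i + 1)) + 1 by omega, seg, ← st_assoc,
          st_assoc _ (seg f 0 i)] at ih2
        rw [seg_succ, zero_add, st_assoc _ (seg f 0 i)]
        revert ih2
        apply (ori σ).st_mono _ le_rfl
        exact (ori σ).st_mono le_rfl (probe_right M hs hm)
  exact hdone c hinv hacc

theorem accepts_of_tape {w : List α} (h : tapeB M w (true, some M.start) (om σ)) :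
    M.Accepts w := by
  let Acc : σ → ℕ → Prop := fun s i =>
    ∃ d : σ × ℕ, Relation.ReflTransGen (M.Step w) (s, i) d ∧ d.1 ∈ M.accept
  let G : ℕ → Lab σ → Prop := fun j m => ∀ s, m.2 = some s →
    (m.1 = true → j ≤ w.length + 1 ∧ Acc s j) ∧ (m.1 = false → 1 ≤ j ∧ Acc s (j - 1))
  have hcell : ∀ i, i ≤ w.length + 1 → (ori σ).Resp (cellB M (scan w i)) (G i) (G (i + 1)) := by
    intro i hi p q hpq hq
    have key : ∀ s, p.2 = some s → Acc s i := by
      intro s hs
      rcases hpq with ⟨rfl, -⟩ | ⟨s0, s1, h1, h2, h3⟩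
      · cases hs
      obtain rfl : s0 = s := by rw [h1] at hs; exact Option.some.inj hs
      have h4 : Acc s1 i := by
        rcases h3 with ⟨h3, -⟩ | ⟨-, s2, ⟨h3, rfl⟩ | ⟨h3, rfl⟩⟩
        · exact ⟨(s1, i), Relation.ReflTransGen.refl, h3⟩
        · obtain ⟨h5, d, h6, h7⟩ := (hq.1 ((pos_iff _).2 rfl) s2 rfl).1 rfl
          refine ⟨d, Relation.ReflTransGen.head ⟨HeadMove.moveRight, h3, ?_⟩ h6, h7⟩
          simp only [movePos]; rw [if_neg (by omega)]
        · obtain ⟨h5, d, h6, h7⟩ := (hq.2 ((neg_iff' _).2 rfl) s2 rfl).2 rfl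
          refine ⟨d, Relation.ReflTransGen.head ⟨HeadMove.moveLeft, h3, ?_⟩ h6, h7⟩
          simp only [movePos]; rw [if_neg (by omega)]
      clear h1 hs
      induction h2 using Relation.ReflTransGen.head_induction_on with
      | refl => exact h4
      | @head s2 s3 h5 _ ih =>
        obtain ⟨d, h6, h7⟩ := ih
        exact ⟨d, Relation.ReflTransGen.head (b := (s3, i)) ⟨HeadMove.stay, h5.2, rfl⟩ h6, h7⟩
    refine ⟨fun hp s hs => ⟨fun _ => ⟨hi, key s hs⟩, fun h' => ?_⟩,
      fun hp s hs => ⟨fun h' => ?_, fun _ => ⟨by omega, key s hs⟩⟩⟩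
    · rw [pos_iff, h'] at hp; cases hp
    · rw [neg_iff', h'] at hp; cases hp
  have hseg : ∀ k a, a + k ≤ w.length + 2 →
      (ori σ).Resp (seg (fun i => cellB M (scan w i)) a k) (G a) (G (a + k)) := by
    intro k
    induction k with
    | zero => intro a _; exact Resp.one _ _
    | succ k ih =>
      intro a ha
      rw [seg, show a + (k + 1) = a + 1 + k by ring]
      exact Resp.st _ (hcell a (by omega)) (ih _ (by omega))
  rw [tapeB_eq] at h
  have := (hseg _ 0 (by omega) _ _ h ⟨fun _ s hs => (by cases hs), fun _ s hs => (by cases hs)⟩).1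
    ((pos_iff _).2 rfl) M.start rfl
  exact (this.1 rfl).2

theorem accepts_mono {u v : List α} (h : wordB M u ≤ wordB M v) (x y : List α)
    (hu : M.Accepts (x ++ u ++ y)) : M.Accepts (x ++ v ++ y) := by
  apply accepts_of_tape
  have := tape_of_accepts M hu
  revert this
  unfold tapeB
  simp only [wordB_append]
  apply (ori σ).st_mono _ le_rfl
  gcongr

theorem cellB_fn (hM : M.IsDeterministic) (c : Cell α) : Fn (cellB M c) := by
  have hru : Relator.RightUnique fun s s' => s ∉ M.accept ∧ (s', HeadMove.stay) ∈ M.step s c := by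
    intro s s1 s2 h1 h2
    exact congrArg Prod.fst (hM s c h1.2 h2.2)
  have key : ∀ s s' q, StayR M c s s' → Exit M c s q → s = s' := by
    intro s s' q h1 h2
    rcases h1.cases_head with h | ⟨s1, h, -⟩
    · exact h
    · rcases h2 with ⟨h2, -⟩ | ⟨-, s2, ⟨h2, -⟩ | ⟨h2, -⟩⟩
      · exact (h.1 h2).elim
      · cases hM s c h.2 h2
      · cases hM s c h.2 h2
  have hex : ∀ s q r, Exit M c s q → Exit M c s r → q = r := by
    rintro s q r (⟨h1, rfl⟩ | ⟨h1, s1, ⟨h2, rfl⟩ | ⟨h2, rfl⟩⟩)
      (⟨h3, rfl⟩ | ⟨h3, s2, ⟨h4, rfl⟩ | ⟨h4, rfl⟩⟩) <;>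
    first
    | rfl
    | exact (h1 h3).elim
    | exact (h3 h1).elim
    | (cases hM s c h2 h4 <;> rfl)
  rintro p q r (⟨rfl, rfl⟩ | ⟨s, s1, h1, h2, h3⟩) h'
  · exact (cellB_from_om M h').symm
  rcases h' with ⟨rfl, -⟩ | ⟨s', s2, h4, h5, h6⟩
  · cases h1
  obtain rfl : s = s' := by rw [h1] at h4; exact Option.some.inj h4
  rcases Relation.ReflTransGen.total_of_right_unique hru h2 h5 with h | h
  · obtain rfl := key _ _ _ h h3; exact hex _ _ _ h3 h6
  · obtain rfl := key _ _ _ h h6; exact hex _ _ _ h3 h6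

theorem wordB_fn (hM : M.IsDeterministic) (w : List α) : Fn (wordB M w) := by
  induction w with
  | nil => rintro p q r rfl rfl; rfl
  | cons a w ih => exact Fn.st _ (cellB_fn M hM _) ih

theorem fn_eq {L : Type u} (O : Ori (Rl L)) {F X : Rl L} (hX : Fn X) (h1 : O.st F X = X)
    (h2 : O.st X F = X) (h : F ≤ X) : X ≤ F := by
  intro p q hpq
  have key : ∃ m, F p m := by
    rcases O.pos_or_neg p with hp | hp
    · rw [← h1] at hpq
      rcases O.st_first hpq with h3 | h3
      · exact h3.2
      · exact (O.not_pos_neg hp h3.1).elim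
    · rw [← h2] at hpq
      rcases O.st_first hpq with h3 | h3
      · exact (O.not_pos_neg h3.1 hp).elim
      · exact h3.2
  obtain ⟨m, hm⟩ := key
  rw [hX p q m hpq (h p m hm)]; exact hm

end Crest.Agent.R294
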