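import Crest.Agent.R294.Rel

/-!
Idempotent behaviours with loops, localisation, transfer and the small step inequality.
-/

set_option autoImplicit false
open Computability

namespace Crest.Agent.R294

universe u

section Count

theorem ncard_image_le_of_rel {α β γ δ : Type*} {A : Set α} {B : Set β} (hB : B.Finite)
    (κ : β → γ) (κ' : α → δ) (F : α → β → Prop) (h1 : ∀ p ∈ A, ∃ m ∈ B, F p m)
    (h2 : ∀ p ∈ A, ∀ p' ∈ A, ∀ m ∈ B, ∀ m' ∈ B, F p m → F p' m' → κ m = κ m' → κ' p = κ' p') :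
    (κ' '' A).ncard ≤ (κ '' B).ncard := by
  classical
  have h3 : ∀ c : κ' '' A, ∃ p ∈ A, ∃ m ∈ B, κ' p = c.1 ∧ F p m := by
    rintro ⟨c, p, hp, rfl⟩
    obtain ⟨m, hm, hF⟩ := h1 p hp
    exact ⟨p, hp, m, hm, rfl, hF⟩
  choose P hP M hM hc hF using h3
  let f : κ' '' A → κ '' B := fun c => ⟨κ (M c), M c, hM c, rfl⟩
  have hf : Function.Injective f := by
    intro c c' h
    apply Subtype.ext
    rw [← hc c, ← hc c']
    exact h2 _ (hP c) _ (hP c') _ (hM c) _ (hM c') (hF c) (hF c') (congrArg Subtype.val h)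
  have : Finite (κ '' B) := (hB.image κ).to_subtype
  rw [← Nat.card_coe_set_eq, ← Nat.card_coe_set_eq]
  exact Nat.card_le_card_of_injective f hf

theorem two_ncard_image_le_of_rel {α β γ δ : Type*} {A : Set α} {B : Set β} (hB : B.Finite)
    (κ : β → γ) (κ' : α → δ) (F : α → β → Prop)
    (h1 : ∀ p ∈ A, ∃ m ∈ B, ∃ m' ∈ B, F p m ∧ F p m' ∧ κ m ≠ κ m')
    (h2 : ∀ p ∈ A, ∀ p' ∈ A, ∀ m ∈ B, ∀ m' ∈ B, F p m → F p' m' → κ m = κ m' → κ' p = κ' p') :
    2 * (κ' '' A).ncard ≤ (κ '' B).ncard := by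
  classical
  have h3 : ∀ c : κ' '' A, ∃ p ∈ A, ∃ m ∈ B, ∃ m' ∈ B,
      κ' p = c.1 ∧ F p m ∧ F p m' ∧ κ m ≠ κ m' := by
    rintro ⟨c, p, hp, rfl⟩
    obtain ⟨m, hm, m', hm', hF⟩ := h1 p hp
    exact ⟨p, hp, m, hm, m', hm', rfl, hF⟩
  choose P hP M hM M' hM' hc hF hF' hne using h3
  let g : κ' '' A × Bool → β := fun c => if c.2 then M c.1 else M' c.1
  have hg : ∀ c, g c ∈ B ∧ F (P c.1) (g c) := by
    rintro ⟨c, _ | _⟩
    · exact ⟨hM' c, hF' c⟩
    · exact ⟨hM c, hF c⟩
  let f : κ' '' A × Bool → κ '' B := fun c => ⟨κ (g c), g c, (hg c).1, rfl⟩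
  have hf : Function.Injective f := by
    rintro ⟨c, b⟩ ⟨c', b'⟩ h
    have h' : κ (g (c, b)) = κ (g (c', b')) := congrArg Subtype.val h
    have hcc : c = c' := by
      apply Subtype.ext
      rw [← hc c, ← hc c']
      exact h2 _ (hP c) _ (hP c') _ (hg (c, b)).1 _ (hg (c', b')).1 (hg (c, b)).2
        (hg (c', b')).2 h'
    subst hcc
    cases b <;> cases b'
    · rfl
    · exact (hne c h'.symm).elim
    · exact (hne c h').elim
    · rfl
  have : Finite (κ '' B) := (hB.image κ).to_subtype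
  have := Nat.card_le_card_of_injective f hf
  rw [Nat.card_prod, Nat.card_coe_set_eq, Nat.card_coe_set_eq] at this
  simp only [Nat.card_eq_fintype_card, Fintype.card_bool] at this
  omega

end Count

namespace Ori
variable {L : Type u} (O : Ori (Rl L))

/-- idempotent behaviours all of whose used labels carry loops -/
structure IsE (e : Rl L) : Prop where
  idem : O.st e e = e
  supp : ∀ p q, e p q → e p p ∧ e q q

/-- the partial identity on the loops -/
def dg (e : Rl L) : Rl L := Rl.diag {p | e p p}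

theorem dg_le (e : Rl L) : dg e ≤ e := Rl.diag_le.2 fun _ h => h
theorem dg_le_one (e : Rl L) : dg e ≤ 1 := Rl.diag_le_one _
theorem st_dg_dg (e : Rl L) : O.st (dg e) (dg e) = dg e :=
  O.st_test (dg_le_one e) (Rl.diag_mul_diag _)

theorem tri_dg_iff (e x : Rl L) (p q : L) :
    O.st (O.st (dg e) x) (dg e) p q ↔ e p p ∧ x p q ∧ e q q := by
  rw [O.tri_test (dg_le_one e), dg, Rl.diag_mul, Rl.mul_diag]; rfl

variable {O}

theorem IsE.flip {e : Rl L} (he : O.IsE e) : O.flip.IsE e :=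
  ⟨by rw [flip_st]; exact he.idem, he.supp⟩

theorem IsE.tri_dg {e : Rl L} (he : O.IsE e) : O.st (O.st (dg e) e) (dg e) = e := by
  ext p q
  rw [tri_dg_iff]
  exact ⟨fun h => h.2.1, fun h => ⟨(he.supp _ _ h).1, h, (he.supp _ _ h).2⟩⟩

theorem IsE.e_dg {e : Rl L} (he : O.IsE e) : O.st e (dg e) = e := by
  calc O.st e (dg e) = O.st (O.st (O.st (dg e) e) (dg e)) (dg e) := by rw [he.tri_dg]
    _ = e := by rw [st_assoc, st_dg_dg, he.tri_dg]

theorem IsE.st_dg {e X : Rl L} (he : O.IsE e) (hX : O.st X e = X) : O.st X (dg e) = X := by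
  calc O.st X (dg e) = O.st (O.st X e) (dg e) := by rw [hX]
    _ = X := by rw [st_assoc, he.e_dg, hX]

theorem IsE.dg_st {e X : Rl L} (he : O.IsE e) (hX : O.st e X = X) : O.st (dg e) X = X := by
  rw [← flip_st] at hX ⊢; exact he.flip.st_dg hX

/-- `G` is absorbed by `e` on both sides -/
structure Sub (O : Ori (Rl L)) (e G : Rl L) : Prop where
  left : O.st e G = G
  right : O.st G e = G

theorem Sub.flip {e G : Rl L} (h : Sub O e G) : Sub O.flip e G :=
  ⟨by rw [flip_st]; exact h.right, by rw [flip_st]; exact h.left⟩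

theorem IsE.sub {e : Rl L} (he : O.IsE e) : Sub O e e := ⟨he.idem, he.idem⟩

theorem Sub.supp {e G : Rl L} (he : O.IsE e) (h : Sub O e G) {p q : L} (hpq : G p q) :
    e p p ∧ e q q := by
  rw [← he.st_dg h.right, ← he.dg_st h.left, st_assoc, ← st_assoc, he.dg_st h.left,
    ← he.dg_st h.left, tri_dg_iff] at hpq
  exact ⟨hpq.1, hpq.2.2⟩

theorem Sub.pre_pos {e G : Rl L} (he : O.IsE e) (h : Sub O e G) {p q r : L} (hp : O.pos p)
    (hq : O.pos q) (h1 : e p q) (h2 : G q r) : G p r := by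
  rw [← h.left]
  rcases O.pos_or_neg r with hr | hr
  · exact O.st_of_pos hp hq hr h1 h2
  · exact O.st_of_abd hp hq hr hr h1 h2 (h.supp he h2).2

theorem Sub.post_pos {e G : Rl L} (he : O.IsE e) (h : Sub O e G) {p q r : L} (hq : O.pos q)
    (hr : O.pos r) (h1 : G p q) (h2 : e q r) : G p r := by
  rw [← h.right]
  rcases O.pos_or_neg p with hp | hp
  · exact O.st_of_pos hp hq hr h1 h2
  · exact O.st_of_dca hp hp hq hr (h.supp he h1).1 h1 h2

theorem Sub.pre {e G : Rl L} (he : O.IsE e) (h : Sub O e G) {p q r : L}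
    (hpq : O.pos p ↔ O.pos q) (h1 : e p q) (h2 : G q r) : G p r := by
  rcases O.pos_or_neg p with hp | hp
  · exact h.pre_pos he hp (hpq.1 hp) h1 h2
  · have hq : O.neg q := by rw [neg_iff] at hp ⊢; exact fun h' => hp (hpq.2 h')
    exact h.flip.pre_pos he.flip hp hq h1 h2

theorem Sub.post {e G : Rl L} (he : O.IsE e) (h : Sub O e G) {p q r : L}
    (hqr : O.pos q ↔ O.pos r) (h1 : G p q) (h2 : e q r) : G p r := by
  rcases O.pos_or_neg q with hq | hq
  · exact h.post_pos he hq (hqr.1 hq) h1 h2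
  · have hr : O.neg r := by rw [neg_iff] at hq ⊢; exact fun h' => hq (hqr.2 h')
    exact h.flip.post_pos he.flip hq hr h1 h2

theorem Sub.turn {e G : Rl L} (h : Sub O e G) {p q : L}
    (hpq : ¬ (O.pos p ↔ O.pos q)) (h1 : e p q) : G p q := by
  rcases O.pos_or_neg p with hp | hp
  · have hq : O.neg q := by rw [neg_iff]; tauto
    rw [← h.left]; exact O.st_of_b hp hq h1
  · have hq : O.pos q := by rw [neg_iff] at hp; tauto
    rw [← h.right]; exact O.st_of_c hp hq h1

theorem IsE.trans {e : Rl L} (he : O.IsE e) {p q r : L} (h1 : e p q) (h2 : e q r) : e p r := by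
  by_cases hpq : O.pos p ↔ O.pos q
  · exact he.sub.pre he hpq h1 h2
  by_cases hqr : O.pos q ↔ O.pos r
  · exact he.sub.post he hqr h1 h2
  rcases O.pos_or_neg p with hp | hp
  · have hq : O.neg q := by rw [neg_iff]; tauto
    have hr : O.pos r := by rw [neg_iff] at hq; tauto
    rw [← he.idem]
    exact O.st_of_abca hp hp hq hr hr (he.supp _ _ h1).1 h1 h2 (he.supp _ _ h2).2
  · have hq : O.pos q := by rw [neg_iff] at hp; tauto
    have hr : O.neg r := by rw [neg_iff]; tauto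
    rw [← he.flip.idem]
    exact O.flip.st_of_abca hp hp hq hr hr (he.supp _ _ h1).1 h1 h2 (he.supp _ _ h2).2

theorem Sub.loop {e G : Rl L} (he : O.IsE e) (h : Sub O e G) {p m : L}
    (hpm : O.pos p ↔ O.pos m) (h1 : e p m) (h2 : G m m) (h3 : e m p) : G p p :=
  h.post he hpm.symm (h.pre he hpm h1 h2) h3

/-! ### classes and counts -/

/-- the class of a label -/
def cls (e : Rl L) (p : L) : Set L := {q | e p q ∧ e q p}

theorem IsE.cls_eq {e : Rl L} (he : O.IsE e) {p q : L} (h1 : e p q) (h2 : e q p) :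
    cls e p = cls e q := by
  ext r
  exact ⟨fun h => ⟨he.trans h2 h.1, he.trans h.2 h1⟩, fun h => ⟨he.trans h1 h.1, he.trans h.2 h2⟩⟩

theorem of_cls_eq {e : Rl L} {p q : L} (hq : e q q) (h : cls e p = cls e q) : e p q ∧ e q p := by
  have : q ∈ cls e q := ⟨hq, hq⟩
  rw [← h] at this; exact this

/-- the number of classes met by a set of labels -/
noncomputable def pts (e : Rl L) (W : Set L) : ℕ := (cls e '' W).ncard

/-- the oriented class of a label -/
def ocls (O : Ori (Rl L)) (e : Rl L) (p : L) : Set L × Prop := (cls e p, O.pos p)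

/-- the number of oriented classes met by a set of labels -/
noncomputable def cnt (O : Ori (Rl L)) (e : Rl L) (W : Set L) : ℕ := (ocls O e '' W).ncard

/-- labels whose loop does not survive in `y` -/
def S (e y : Rl L) : Set L := {p | e p p ∧ ¬ y p p}

theorem S_st (e x y : Rl L) : S e (O.st x y) ⊆ S e x ∪ S e y := by
  intro p hp
  by_contra h
  simp only [S, Set.mem_union, Set.mem_ofPred_eq, not_or, not_and, not_not] at h hp
  exact hp.2 (O.st_loop (h.1 hp.1) (h.2 hp.1))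

variable [Finite L]

theorem pts_le_cnt (e : Rl L) (W : Set L) : pts e W ≤ cnt O e W :=
  ncard_image_le_of_rel W.toFinite _ _ Eq (fun p hp => ⟨p, hp, rfl⟩)
    (by rintro p - p' - _ - _ - rfl rfl h; exact congrArg Prod.fst h)

theorem cnt_le_two_pts (e : Rl L) (W : Set L) : cnt O e W ≤ 2 * pts e W := by
  have h : ocls O e '' W ⊆ (cls e '' W) ×ˢ (Set.univ : Set Prop) := by
    rintro _ ⟨p, hp, rfl⟩; exact ⟨⟨p, hp, rfl⟩, trivial⟩
  have h2 := Set.ncard_le_ncard h ((W.toFinite.image _).prod Set.finite_univ)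
  rw [Set.ncard_prod, Set.ncard_univ, Nat.card_eq_fintype_card, Fintype.card_prop] at h2
  unfold cnt pts; omega

theorem pts_mono (e : Rl L) {W W' : Set L} (h : W ⊆ W') : pts e W ≤ pts e W' :=
  Set.ncard_le_ncard (Set.image_mono h) (W'.toFinite.image _)

theorem pts_le_card (e : Rl L) (W : Set L) : pts e W ≤ Nat.card L :=
  (Set.ncard_image_le W.toFinite).trans (Set.ncard_le_card W)

omit [Finite L] in
theorem pts_union (e : Rl L) (W W' : Set L) : pts e (W ∪ W') ≤ pts e W + pts e W' := by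
  unfold pts; rw [Set.image_union]; exact Set.ncard_union_le _ _

omit [Finite L] in
theorem pts_biUnion {ι : Type*} (e : Rl L) (s : Finset ι) (f : ι → Set L) (μ : ℕ)
    (h : ∀ i ∈ s, pts e (f i) ≤ μ) : pts e (⋃ i ∈ s, f i) ≤ s.card * μ := by
  classical
  induction s using Finset.induction_on with
  | empty => simp [pts]
  | insert i s hi ih =>
    rw [Finset.set_biUnion_insert, Finset.card_insert_of_notMem hi]
    have h1 := pts_union e (f i) (⋃ i ∈ s, f i)
    have h2 := h i (Finset.mem_insert_self _ _)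
    have h3 := ih fun j hj => h j (Finset.mem_insert_of_mem hj)
    nlinarith

theorem pts_pos (e : Rl L) {W : Set L} (h : W.Nonempty) : 1 ≤ pts e W :=
  (Set.ncard_pos (W.toFinite.image _)).2 (h.image _)

/-! ### transfer -/

/-- `m` is a middle label on a path from `p` to `p` -/
def Foot (O : Ori (Rl L)) (e X Z : Rl L) (p m : L) : Prop :=
  (O.inn X Z * (dg e * O.mid X Z)∗) p m ∧ (dg e * ((O.mid X Z * dg e)∗ * O.out X Z)) m p

omit [Finite L] in
theorem foot_exists {e X Z y : Rl L} (he : O.IsE e) (hX : O.st X e = X) {p : L}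
    (hp : O.st X Z p p) (hy : ¬ O.st (O.st X y) Z p p) : ∃ m ∈ S e y, Foot O e X Z p m := by
  by_contra hcon
  apply hy
  have hS : ∀ m, e m m → Foot O e X Z p m → y m m := by
    intro m h1 h2
    by_contra h3
    exact hcon ⟨m, ⟨h1, h3⟩, h2⟩
  rw [← he.st_dg hX, ← tri_eq] at hp
  rw [← tri_eq]
  rcases hp with hp | ⟨m0, h0, m1, h1, h2⟩
  · exact Or.inl hp
  right
  have hsl : dg e * ((O.mid X Z * dg e)∗ * O.out X Z)
      = (dg e * O.mid X Z)∗ * (dg e * O.out X Z) := by
    rw [← mul_assoc, ← kstar_slide, mul_assoc]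
  have key : ∀ m, Relation.ReflTransGen (dg e * O.mid X Z) m0 m →
      ((dg e * O.mid X Z)∗ * (dg e * O.out X Z)) m p →
      Relation.ReflTransGen (y * O.mid X Z) m0 m := by
    intro m hm
    induction hm with
    | refl => intro _; exact Relation.ReflTransGen.refl
    | @tail m' m'' h3 h4 ih =>
      rintro ⟨m3, h5, h6⟩
      have hpost : ((dg e * O.mid X Z)∗ * (dg e * O.out X Z)) m' p :=
        ⟨m3, Relation.ReflTransGen.head h4 h5, h6⟩
      have h7 := (Rl.diag_mul _ _ _ _).1 h4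
      refine (ih hpost).tail ⟨m', hS m' h7.1 ⟨⟨m0, h0, h3⟩, ?_⟩, h7.2⟩
      rw [hsl]; exact hpost
  have hpost : ((dg e * O.mid X Z)∗ * (dg e * O.out X Z)) m1 p :=
    ⟨m1, Relation.ReflTransGen.refl, h2⟩
  have h7 := (Rl.diag_mul _ _ _ _).1 h2
  refine ⟨m0, h0, m1, key m1 h1 hpost, m1, hS m1 h7.1 ⟨⟨m0, h0, h1⟩, ?_⟩, h7.2⟩
  rw [hsl]; exact hpost

omit [Finite L] in
theorem foot_edge {e X Z : Rl L} (hX : O.st X e = X) {p p' m m' : L}
    (h1 : Foot O e X Z p m) (h2 : Foot O e X Z p' m') (hm : e m m') : O.st X Z p p' := by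
  have key : (O.inn X Z * (dg e * O.mid X Z)∗) *
      (e * (dg e * ((O.mid X Z * dg e)∗ * O.out X Z))) ≤ O.st X Z := by
    have h3 : e * dg e ≤ e := mul_le_of_le_one_right' (dg_le_one e)
    have h4 := dg_le e
    calc _ = (O.inn X Z * (dg e * O.mid X Z)∗) *
          ((e * dg e) * ((O.mid X Z * dg e)∗ * O.out X Z)) := by simp only [mul_assoc]
      _ ≤ (O.inn X Z * (e * O.mid X Z)∗) * (e * ((O.mid X Z * e)∗ * O.out X Z)) := by gcongr
      _ = O.inn X Z * ((e * O.mid X Z)∗ * (e * O.out X Z)) := by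
        rw [← mul_assoc e, ← kstar_slide]; simp only [mul_assoc, kstar_mul_kstar']
      _ ≤ O.tri X e Z := le_add_self
      _ = O.st X Z := by rw [tri_eq, hX]
  exact key p p' ⟨m, h1.1, m', hm, h2.2⟩

theorem transfer {e e' X Z : Rl L} (he : O.IsE e) (he' : O.IsE e') (hX : O.st X e = X)
    (hXZ : O.st X Z = e') (B : Set L) (hB : ∀ m ∈ B, e m m) :
    ∃ W, pts e' W ≤ pts e B ∧ ∀ y, S e y ⊆ B → S e' (O.st (O.st X y) Z) ⊆ W := by
  refine ⟨{p | ∃ m ∈ B, Foot O e X Z p m}, ?_, ?_⟩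
  · apply ncard_image_le_of_rel B.toFinite _ _ (Foot O e X Z) (fun p hp => hp)
    intro p _ p' _ m hm m' hm' h1 h2 h3
    have h4 := of_cls_eq (hB m' hm') h3
    apply he'.cls_eq
    · rw [← hXZ]; exact foot_edge hX h1 h2 h4.1
    · rw [← hXZ]; exact foot_edge hX h2 h1 h4.2
  · intro y hy p hp
    have h1 := hp.1
    rw [← hXZ] at h1
    obtain ⟨m, hm, hF⟩ := foot_exists he hX h1 hp.2
    exact ⟨m, hy hm, hF⟩

theorem transfer_one {e e' X Z : Rl L} (he : O.IsE e) (he' : O.IsE e') (hX : O.st X e = X)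
    (hXZ : O.st X Z = e') (y : Rl L) : pts e' (S e' (O.st (O.st X y) Z)) ≤ pts e (S e y) := by
  obtain ⟨W, h1, h2⟩ := transfer he he' hX hXZ (S e y) fun m hm => hm.1
  exact (pts_mono _ (h2 y subset_rfl)).trans h1

end Ori

end Crest.Agent.R294
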