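import Crest.Agent.R294.Auto

/-!
Lower bounds for liveness and the small one-way automaton.
-/

set_option autoImplicit false
open Computability

namespace Crest.Agent.R294

universe u

open Ori Crest.TwoWay

/-- the composite relation of a word -/
def wr {h : ℕ} (w : List (Fin h → Fin h → Bool)) : Rl (Fin h) := wordRel w

theorem wr_nil {h : ℕ} : wr ([] : List (Fin h → Fin h → Bool)) = 1 := rfl

theorem wr_append {h : ℕ} (u v : List (Fin h → Fin h → Bool)) : wr (u ++ v) = wr u * wr v := by
  induction u with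
  | nil => rw [List.nil_append, wr_nil, one_mul]
  | cons R u ih =>
    ext a c
    have ih' : ∀ a c, wordRel (u ++ v) a c ↔ ∃ b, wordRel u a b ∧ wordRel v b c := fun a c => by
      have := congrFun (congrFun ih a) c
      exact this.to_iff
    simp only [wr, List.cons_append, wordRel, Rl.mul_def, ih']
    constructor
    · rintro ⟨b, h1, d, h2, h3⟩; exact ⟨d, ⟨b, h1, h2⟩, h3⟩
    · rintro ⟨d, ⟨b, h1, h2⟩, h3⟩; exact ⟨b, h1, d, h2, h3⟩

open Classical in
/-- the letter of a relation -/
noncomputable def letterOf {h : ℕ} (X : Rl (Fin h)) : Fin h → Fin h → Bool :=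
  fun a b => decide (X a b)

theorem wr_letterOf {h : ℕ} (X : Rl (Fin h)) : wr [letterOf X] = X := by
  ext a b
  simp [wr, wordRel, letterOf]

theorem live_context {h : ℕ} (w : List (Fin h → Fin h → Bool)) (a b : Fin h) :
    [letterOf (EE a a)] ++ w ++ [letterOf (EE b b)] ∈ liveness h ↔ wr w a b := by
  show (∃ c d, wr ([letterOf (EE a a)] ++ w ++ [letterOf (EE b b)]) c d) ↔ _
  rw [wr_append, wr_append, wr_letterOf, wr_letterOf]
  constructor
  · rintro ⟨c, d, e, ⟨f, ⟨-, rfl⟩, h1⟩, rfl, -⟩; exact h1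
  · intro h1; exact ⟨a, b, b, ⟨a, ⟨rfl, rfl⟩, h1⟩, rfl, rfl⟩

theorem bound_of_faith {h : ℕ} (hh : 2 ≤ h) {σ : Type u} [Fintype σ]
    (M : TwoWayNFA (Fin h → Fin h → Bool) σ)
    (hF : ∀ u v, (ori σ).st (wordB M u) (wordB M v) = wordB M v →
      (ori σ).st (wordB M v) (wordB M u) = wordB M v → wordB M u ≤ wordB M v → wr v ≤ wr u) :
    2 ^ ((h - 2) / 31) ≤ 2 * (Fintype.card σ + 1) := by
  classical
  let T := Beh (ori σ) × Rl (Fin h)
  let ρ : Rep (ori σ) T :=
    { g := 1
      ψ := fun x => x.1
      idem := mul_one _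
      mul := fun _ _ _ _ => rfl
      supp := by rintro p q rfl; exact ⟨rfl, rfl⟩ }
  let Lift : T → Rl (Fin h) → Prop := fun x X => ∃ w, x.1 = wordB M w ∧ X = wr w
  have hm : LMul Lift := by
    rintro x y _ _ ⟨u, h1, rfl⟩ ⟨v, h2, rfl⟩
    refine ⟨u ++ v, ?_, (wr_append u v).symm⟩
    rw [wordB_append, ← h1, ← h2]; rfl
  have hf : Faith ρ Lift := by
    rintro f x _ _ - - h1 ⟨u, h2, rfl⟩ ⟨v, h3, rfl⟩ h4
    apply hF
    · rw [← h2, ← h3]; exact congrArg Prod.fst h1.1
    · rw [← h2, ← h3]; exact congrArg Prod.fst h1.2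
    · rw [← h2, ← h3]; exact h4
  have hs : ∀ X, ∃ x, Lift x X := fun X =>
    ⟨(wordB M [letterOf X], 1), [letterOf X], rfl, (wr_letterOf X).symm⟩
  have hN : NN (Finset.univ : Finset (Fin h)) = 1 := by
    ext a b; simp [NN_def, Rl.one_def]
  let i : Fin h := ⟨0, by omega⟩
  let j : Fin h := ⟨1, by omega⟩
  obtain ⟨x, hx⟩ := hs (1 + EE i j)
  have := PP'_all ((h - 2) / 31) ρ Lift 1 Finset.univ hm hf ⟨[], rfl, rfl⟩ (mul_one _)
    (by rw [hN, mul_one, mul_one]) (fun X _ => hs X)
    (by rw [Finset.card_univ, Fintype.card_fin]; omega) x _ i j (Finset.mem_univ _)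
    (Finset.mem_univ _) (by simp [i, j]) ⟨one_mul _, mul_one _⟩ hx (by rw [one_mul, mul_one])
    (by rw [hN, one_mul, mul_one])
  refine this.trans ((pts_le_card _ _).trans ?_)
  simp

theorem bound_compl {h : ℕ} (hh : 2 ≤ h) {σ : Type u} [Fintype σ]
    (M : TwoWayNFA (Fin h → Fin h → Bool) σ) (hM : M.language = (liveness h)ᶜ) :
    2 ^ ((h - 2) / 31) ≤ 2 * (Fintype.card σ + 1) := by
  apply bound_of_faith hh M
  intro u v _ _ h3 a b hab
  by_contra hn
  have h4 : ∀ w, M.Accepts w ↔ w ∉ liveness h := fun w => by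
    have : w ∈ M.language ↔ w ∈ (liveness h)ᶜ := by rw [hM]
    exact this
  have h5 := accepts_mono M h3 [letterOf (EE a a)] [letterOf (EE b b)]
    ((h4 _).2 (by rw [live_context]; exact hn))
  rw [h4, live_context] at h5
  exact h5 hab

theorem bound_det {h : ℕ} (hh : 2 ≤ h) {σ : Type u} [Fintype σ]
    (M : TwoWayNFA (Fin h → Fin h → Bool) σ) (hd : M.IsDeterministic)
    (hM : M.language = liveness h) : 2 ^ ((h - 2) / 31) ≤ 2 * (Fintype.card σ + 1) := by
  apply bound_of_faith hh M
  intro u v h1 h2 h3 a b hab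
  have h4 : ∀ w, M.Accepts w ↔ w ∈ liveness h := fun w => by
    have : w ∈ M.language ↔ w ∈ liveness h := by rw [hM]
    exact this
  have h5 := accepts_mono M (fn_eq _ (wordB_fn M hd v) h1 h2 h3)
    [letterOf (EE a a)] [letterOf (EE b b)] ((h4 _).2 (by rw [live_context]; exact hab))
  rwa [h4, live_context] at h5

/-- the one-way automaton guessing a live path -/
def guess {h : ℕ} {σ : Type} (e : Fin h ⊕ Bool ↪ σ) : TwoWayNFA (Fin h → Fin h → Bool) σ where
  start := e (Sum.inr false)
  accept := {e (Sum.inr true)}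
  step q c := match c with
    | Cell.leftEnd => {p | q = e (Sum.inr false) ∧ ∃ a, p = (e (Sum.inl a), HeadMove.moveRight)}
    | Cell.letter R =>
        {p | ∃ a b, q = e (Sum.inl a) ∧ R a b = true ∧ p = (e (Sum.inl b), HeadMove.moveRight)}
    | Cell.rightEnd => {p | (∃ a, q = e (Sum.inl a)) ∧ p = (e (Sum.inr true), HeadMove.stay)}

theorem guess_noLeft {h : ℕ} {σ : Type} (e : Fin h ⊕ Bool ↪ σ) : (guess e).NoLeftMoves := by
  intro q c p hp
  cases c with
  | leftEnd => obtain ⟨-, a, rfl⟩ := hp; simp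
  | letter R => obtain ⟨a, b, -, -, rfl⟩ := hp; simp
  | rightEnd => obtain ⟨-, rfl⟩ := hp; simp

theorem scan_succ_lt {α : Type*} (w : List α) {i : ℕ} (hi : i < w.length) :
    scan w (i + 1) = Cell.letter w[i] := by simp [scan, hi]

theorem scan_succ_ge {α : Type*} (w : List α) {i : ℕ} (hi : w.length ≤ i) :
    scan w (i + 1) = Cell.rightEnd := by simp [scan, List.getElem?_eq_none hi]

theorem guess_language {h : ℕ} {σ : Type} (e : Fin h ⊕ Bool ↪ σ) :
    (guess e).language = liveness h := by
  ext w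
  constructor
  · rintro ⟨c, hc, hacc⟩
    let Inv : σ × ℕ → Prop := fun c => c = (e (Sum.inr false), 0) ∨
      (∃ a b i, c = (e (Sum.inl b), i + 1) ∧ wr (w.take i) a b) ∨
      (c.1 = e (Sum.inr true) ∧ w ∈ liveness h)
    have hinv : Inv c := by
      clear hacc
      induction hc with
      | refl => exact Or.inl rfl
      | @tail c d _ hstep ih =>
        obtain ⟨s', j⟩ := d
        obtain ⟨m, hm, hpos⟩ := hstep
        rcases ih with rfl | ⟨a, b, i, rfl, hab⟩ | ⟨h1, h2⟩
        · obtain ⟨-, a, ha⟩ := hm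
          cases ha
          simp only [movePos] at hpos
          split_ifs at hpos
          cases hpos
          exact Or.inr (Or.inl ⟨a, a, 0, rfl, rfl⟩)
        · simp only at hm hpos
          rcases lt_or_ge i w.length with hi | hi
          · rw [scan_succ_lt w hi] at hm
            obtain ⟨a', b', h1, h2, h3⟩ := hm
            obtain rfl : b = a' := Sum.inl.inj (e.injective h1)
            cases h3
            simp only [movePos] at hpos
            split_ifs at hpos
            cases hpos
            refine Or.inr (Or.inl ⟨a, b', i + 1, rfl, ?_⟩)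
            rw [List.take_succ_eq_append_getElem hi, wr_append]
            exact ⟨b, hab, b', h2, rfl⟩
          · rw [scan_succ_ge w hi] at hm
            obtain ⟨-, h3⟩ := hm
            cases h3
            rw [List.take_of_length_le hi] at hab
            exact Or.inr (Or.inr ⟨rfl, a, b, hab⟩)
        · exfalso
          generalize scan w c.2 = cell at hm
          cases cell with
          | leftEnd => obtain ⟨h3, -⟩ := hm; rw [h1] at h3; cases e.injective h3
          | letter R => obtain ⟨a, b, h3, -⟩ := hm; rw [h1] at h3; cases e.injective h3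
          | rightEnd => obtain ⟨⟨a, h3⟩, -⟩ := hm; rw [h1] at h3; cases e.injective h3
    have hacc' : c.1 = e (Sum.inr true) := hacc
    rcases hinv with rfl | ⟨a, b, i, rfl, -⟩ | ⟨-, h2⟩
    · cases e.injective hacc'
    · cases e.injective hacc'
    · exact h2
  · rintro ⟨a, b, hab⟩
    have key : ∀ i, i ≤ w.length → ∀ b, wr (w.take i) a b →
        Relation.ReflTransGen ((guess e).Step w) ((guess e).start, 0) (e (Sum.inl b), i + 1) := by
      intro i
      induction i with
      | zero =>
        intro _ b hb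
        cases hb
        exact Relation.ReflTransGen.single ⟨HeadMove.moveRight, ⟨rfl, a, rfl⟩, by simp [movePos]⟩
      | succ i ih =>
        intro hi b hb
        rw [List.take_succ_eq_append_getElem hi, wr_append] at hb
        obtain ⟨c, h1, b', h2, rfl⟩ := hb
        refine (ih (by omega) c h1).tail ⟨HeadMove.moveRight, ?_, ?_⟩
        · simp only
          rw [scan_succ_lt w hi]
          exact ⟨c, b', rfl, h2, rfl⟩
        · simp only [movePos]; rw [if_neg (by omega)]
    refine ⟨(e (Sum.inr true), w.length + 1), (key _ le_rfl b (by rwa [List.take_length])).tail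
      ⟨HeadMove.stay, ?_, rfl⟩, rfl⟩
    simp only
    rw [scan_succ_ge w le_rfl]
    exact ⟨⟨b, rfl⟩, rfl⟩

theorem exists_guess (h n : ℕ) (hn : h + 2 ≤ n) :
    ∃ A : TwoWayNFA (Fin h → Fin h → Bool) (Fin n), A.NoLeftMoves ∧ A.language = liveness h := by
  obtain ⟨e⟩ : Nonempty (Fin h ⊕ Bool ↪ Fin n) :=
    Function.Embedding.nonempty_of_card_le (by simpa using hn)
  exact ⟨guess e, guess_noLeft e, guess_language e⟩

end Crest.Agent.R294
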