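import Crest.Agent.R294.Rep

/-!
The main induction: a lift of `1 + E i j` kills exponentially many classes of labels.
-/

set_option autoImplicit false
open Computability

namespace Crest.Agent.R294

universe u v w

open Ori

section RelV
variable {V : Type w}

theorem NN_def (U : Finset V) (a b : V) : NN U a b ↔ a = b ∧ a ∈ U := Iff.rfl
theorem EE_def (i j a b : V) : EE i j a b ↔ a = i ∧ b = j := Iff.rfl

/-- the graph of a permutation on `U` -/
def PR (U : Finset V) (σ : Equiv.Perm V) : Rl V := fun a b => a ∈ U ∧ b = σ a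
/-- the inverse graph of a permutation on `U` -/
def PR' (U : Finset V) (σ : Equiv.Perm V) : Rl V := fun a b => b ∈ U ∧ a = σ b

/-- partial identity together with a finite set of pairs -/
def NE (U : Finset V) (s : Finset (V × V)) : Rl V := fun a b => (a = b ∧ a ∈ U) ∨ (a, b) ∈ s

theorem NE_mul [DecidableEq V] {U A B : Finset V} (hA : A ⊆ U) (hB : B ⊆ U)
    (hAB : Disjoint A B) {s s' : Finset (V × V)} (hs : s ⊆ A ×ˢ B) (hs' : s' ⊆ A ×ˢ B) :
    NE U s * NE U s' = NE U (s ∪ s') := by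
  ext a b
  simp only [Rl.mul_def, NE, Finset.mem_union]
  constructor
  · rintro ⟨c, ⟨rfl, h1⟩ | h1, ⟨rfl, h2⟩ | h2⟩
    · exact Or.inl ⟨rfl, h1⟩
    · exact Or.inr (Or.inr h2)
    · exact Or.inr (Or.inl h1)
    · exact (Finset.disjoint_left.1 hAB (Finset.mem_product.1 (hs' h2)).1
        (Finset.mem_product.1 (hs h1)).2).elim
  · rintro (⟨rfl, h⟩ | h | h)
    · exact ⟨a, Or.inl ⟨rfl, h⟩, Or.inl ⟨rfl, h⟩⟩
    · exact ⟨b, Or.inr h, Or.inl ⟨rfl, hB (Finset.mem_product.1 (hs h)).2⟩⟩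
    · exact ⟨a, Or.inl ⟨rfl, hA (Finset.mem_product.1 (hs' h)).1⟩, Or.inr h⟩

theorem NN_sandwich (U : Finset V) (X : Rl V) (a b : V) :
    (NN U * X * NN U) a b ↔ a ∈ U ∧ X a b ∧ b ∈ U := by
  rw [NN, Rl.mul_diag, Rl.diag_mul, and_assoc]; rfl

theorem exists_perm [DecidableEq V] {U : Finset V} {i j i' j' : V} (hi : i ∈ U) (hj : j ∈ U)
    (hi' : i' ∈ U) (hj' : j' ∈ U) (hij : i ≠ j) (hij' : i' ≠ j') :
    ∃ σ : Equiv.Perm V, σ i = i' ∧ σ j = j' ∧ ∀ a, σ a ∈ U ↔ a ∈ U := by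
  have hsw : ∀ x y, x ∈ U → y ∈ U → ∀ a, Equiv.swap x y a ∈ U ↔ a ∈ U := by
    intro x y hx hy a
    rw [Equiv.swap_apply_def]
    split_ifs with h1 h2
    · subst h1; tauto
    · subst h2; tauto
    · rfl
  refine ⟨(Equiv.swap i i').trans (Equiv.swap (Equiv.swap i i' j) j'), ?_, ?_, ?_⟩
  · rw [Equiv.trans_apply, Equiv.swap_apply_left]
    apply Equiv.swap_apply_of_ne_of_ne _ hij'
    intro h
    apply hij
    apply (Equiv.swap i i').injective
    rw [Equiv.swap_apply_left, ← h]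
  · rw [Equiv.trans_apply, Equiv.swap_apply_left]
  · intro a
    rw [Equiv.trans_apply, hsw _ _ ((hsw _ _ hi hi' j).2 hj) hj', hsw _ _ hi hi']

end RelV

variable {L : Type u} [Finite L] {O : Ori (Rl L)} {T : Type v} [Monoid T] [Finite T]
  {V : Type w} [DecidableEq V]

omit [Finite T] in
theorem Gen.conj {ρ : Rep O T} {Lift : T → Rl V → Prop} {U : Finset V} (h : Gen ρ Lift U)
    {x : T} {i j i' j' : V} (hi : i ∈ U) (hj : j ∈ U) (hi' : i' ∈ U) (hj' : j' ∈ U)
    (hij : i ≠ j) (hij' : i' ≠ j') (hx : Lift x (NN U + EE i j)) :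
    ∃ x', Lift x' (NN U + EE i' j') ∧ ρ.np (ρ.SS x') ≤ ρ.np (ρ.SS x) := by
  obtain ⟨σ, h1, h2, h3⟩ := exists_perm hi hj hi' hj' hij hij'
  have e1 : NN U * PR' U σ * NN U = PR' U σ := by
    ext a b; rw [NN_sandwich]; simp only [PR']
    constructor
    · exact fun h => h.2.1
    · rintro ⟨h4, rfl⟩; exact ⟨(h3 _).2 h4, ⟨h4, rfl⟩, h4⟩
  have e2 : NN U * PR U σ * NN U = PR U σ := by
    ext a b; rw [NN_sandwich]; simp only [PR]
    constructor
    · exact fun h => h.2.1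
    · rintro ⟨h4, rfl⟩; exact ⟨h4, ⟨h4, rfl⟩, (h3 _).2 h4⟩
  have e3 : PR' U σ * PR U σ = NN U := by
    ext a b; simp only [Rl.mul_def, PR, PR', NN_def]
    constructor
    · rintro ⟨c, ⟨h4, rfl⟩, -, rfl⟩; exact ⟨rfl, (h3 _).2 h4⟩
    · rintro ⟨rfl, h4⟩
      have h5 : σ.symm a ∈ U := by rw [← h3]; simpa using h4
      exact ⟨σ.symm a, ⟨h5, by simp⟩, h5, by simp⟩
  have e4 : PR U σ * NN U = PR U σ := by
    conv_lhs => rw [← e2, mul_assoc, NN_mul, e2]
  have e5 : PR' U σ * (NN U + EE i j) * PR U σ = NN U + EE i' j' := by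
    have e6 : PR' U σ * NN U = PR' U σ := by
      conv_lhs => rw [← e1, mul_assoc, NN_mul, e1]
    rw [mul_add, add_mul, e6, e3]
    congr 1
    ext a b; simp only [Rl.mul_def, PR, PR', EE_def]
    constructor
    · rintro ⟨c, ⟨d, ⟨-, rfl⟩, rfl, rfl⟩, -, rfl⟩; exact ⟨h1, h2⟩
    · rintro ⟨rfl, rfl⟩; exact ⟨j, ⟨i, ⟨hi, h1.symm⟩, rfl, rfl⟩, hj, h2.symm⟩
  obtain ⟨u, hu⟩ := h.surj _ e1
  obtain ⟨u0, hu0⟩ := h.surj _ e2
  have huu : Lift (u * u0) (NN U) := by rw [← e3]; exact h.mul _ _ _ _ hu hu0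
  obtain ⟨n, hn⟩ := h.gen _ huu
  have hu' : ∀ m, Lift (u0 * (u * u0) ^ m) (PR U σ) := by
    intro m
    induction m with
    | zero => simpa using hu0
    | succ m ih => rw [pow_succ, ← mul_assoc, ← e4]; exact h.mul _ _ _ _ ih huu
  refine ⟨u * x * (u0 * (u * u0) ^ n), ?_, ?_⟩
  · rw [← e5]; exact h.mul _ _ _ _ (h.mul _ _ _ _ hu hx) (hu' n)
  · apply ρ.conj (h.loc _ _ hu) (h.loc _ _ (hu' n)) (h.loc _ _ hx)
    rw [← hn, pow_succ', mul_assoc]

/-- the generic statement -/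
def PP (O : Ori (Rl L)) (T : Type v) [Monoid T] (V : Type w) (t : ℕ) : Prop :=
  ∀ (ρ : Rep O T) (Lift : T → Rl V → Prop) (U : Finset V), Gen ρ Lift U → 2 + 31 * t ≤ U.card →
    ∀ x i j, i ∈ U → j ∈ U → i ≠ j → Lift x (NN U + EE i j) → 2 ^ t ≤ ρ.np (ρ.SS x)

/-- the relative statement -/
def PP' (O : Ori (Rl L)) (T : Type v) [Monoid T] (V : Type w) (t : ℕ) : Prop :=
  ∀ (ρ : Rep O T) (Lift : T → Rl V → Prop) (Q : Rl V) (U : Finset V), LMul Lift → Faith ρ Lift →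
    Lift ρ.g Q → Q * Q = Q → NN U * Q * NN U = NN U →
    (∀ X, NN U * X * NN U = X → ∃ x, Lift x X) → 2 + 31 * t ≤ U.card →
    ∀ x X i j, i ∈ U → j ∈ U → i ≠ j → Loc ρ.g x → Lift x X → Q * X * Q = X →
      NN U * X * NN U = NN U + EE i j → 2 ^ t ≤ ρ.np (ρ.SS x)

omit [DecidableEq V] in
theorem PP.rel {t : ℕ} (h : PP O T V t) : PP' O T V t := by
  intro ρ Lift Q U hm hf h1 hQ hN hs hc x X i j hi hj hij hx hX hQX hNX
  obtain ⟨F, hF, hl, Lift', hG, hL⟩ := exists_gen ρ hm hf h1 hQ hN hs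
  have h2 := hL x X hx hX hQX
  rw [hNX] at h2
  have h3 := h _ _ _ hG hc _ i j hi hj hij h2
  obtain ⟨W, h4, h5⟩ := ρ.loc_transfer hF hl (ρ.SS x) fun m hm => hm.1
  exact h3.trans ((pts_mono _ (h5 x hx subset_rfl)).trans h4)

omit [Finite T] [DecidableEq V] in
theorem PP_zero : PP O T V 0 := by
  intro ρ Lift U h _ x i j _ _ hij hx
  rw [pow_zero]
  apply pts_pos
  rw [Set.nonempty_iff_ne_empty]
  intro he
  have hl := h.loc _ _ hx
  have := h.faith _ _ _ _ ρ.idem ρ.loc_g hl h.one hx (ρ.le_of_SS_empty hl he)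
  exact hij (this i j (Or.inr ⟨rfl, rfl⟩)).1

theorem PP'.succ {t : ℕ} (ih : PP' O T V t) : PP O T V (t + 1) := by
  intro ρ Lift U h hc x i0 j0 hi0 hj0 hij0 hx
  set μ := ρ.np (ρ.SS x) with hμ
  -- hub and the two sides
  obtain ⟨v0, hv0⟩ : U.Nonempty := ⟨i0, hi0⟩
  set U0 := U.erase v0 with hU0
  have hc0 : U0.card + 1 = U.card := Finset.card_erase_add_one hv0
  obtain ⟨A, hA, hAc⟩ := Finset.exists_subset_card_eq (s := U0) (n := 16) (by omega)
  obtain ⟨B, hB', hBc⟩ := Finset.exists_subset_card_eq (s := U0 \ A) (n := 16)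
    (by rw [Finset.card_sdiff_of_subset hA]; omega)
  have hB : B ⊆ U0 := hB'.trans Finset.sdiff_subset
  have hAB : Disjoint A B := Finset.disjoint_left.2 fun a ha hb =>
    (Finset.mem_sdiff.1 (hB' hb)).2 ha
  have hU0U : U0 ⊆ U := Finset.erase_subset _ _
  have hne : ∀ a ∈ U0, a ≠ v0 := fun a ha => (Finset.mem_erase.1 ha).1
  have ht : ∀ i, ∃ y, i ∈ A → Lift y (NN U + EE i v0) ∧ ρ.np (ρ.SS y) ≤ μ := by
    intro i
    by_cases hi : i ∈ A
    · obtain ⟨y, hy⟩ := h.conj hi0 hj0 (hU0U (hA hi)) hv0 hij0 (hne _ (hA hi)) hx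
      exact ⟨y, fun _ => hy⟩
    · exact ⟨1, fun h' => (hi h').elim⟩
  have hs : ∀ k, ∃ y, k ∈ B → Lift y (NN U + EE v0 k) ∧ ρ.np (ρ.SS y) ≤ μ := by
    intro k
    by_cases hk : k ∈ B
    · obtain ⟨y, hy⟩ := h.conj hi0 hj0 hv0 (hU0U (hB hk)) hij0 (hne _ (hB hk)).symm hx
      exact ⟨y, fun _ => hy⟩
    · exact ⟨1, fun h' => (hk h').elim⟩
  choose tt htt using ht
  choose ss hss using hs
  have hsupp : ∀ U' ⊆ U, ∀ X, NN U' * X * NN U' = X → ∃ y, Lift y X := by
    intro U' hU' X hX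
    apply h.surj
    ext a b
    rw [NN_sandwich]
    refine ⟨fun h' => h'.2.1, fun h' => ?_⟩
    have h'' := h'
    rw [← hX, NN_sandwich] at h''
    exact ⟨hU' h''.1, h', hU' h''.2.2⟩
  obtain ⟨n0, hn0⟩ := hsupp U0 hU0U (NN U0) (by rw [NN_mul, NN_mul])
  obtain ⟨m0, hn, hnL⟩ := h.mul.exists_idem hn0 (NN_mul U0)
  set n := n0 ^ (m0 + 1) with hndef
  have hnl : Loc ρ.g n := h.loc _ _ hnL
  have hNE : NN U0 = NE U0 ∅ := by ext a b; simp [NN_def, NE]
  let y : V × V → T := fun p => n * (tt p.1 * ss p.2) * n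
  have hy : ∀ p ∈ A ×ˢ B, Lift (y p) (NE U0 {p}) := by
    rintro ⟨i, k⟩ hp
    obtain ⟨hi, hk⟩ := Finset.mem_product.1 hp
    have := h.mul _ _ _ _ (h.mul _ _ _ _ hnL (h.mul _ _ _ _ (htt i hi).1 (hss k hk).1)) hnL
    convert this using 1
    ext a b
    rw [NN_sandwich]
    simp only [NE, Rl.mul_def, Rl.add_def, NN_def, EE_def, Finset.mem_singleton, Prod.mk.injEq]
    constructor
    · rintro (⟨rfl, h1⟩ | ⟨rfl, rfl⟩)
      · exact ⟨h1, ⟨a, Or.inl ⟨rfl, hU0U h1⟩, Or.inl ⟨rfl, hU0U h1⟩⟩, h1⟩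
      · exact ⟨hA hi, ⟨v0, Or.inr ⟨rfl, rfl⟩, Or.inr ⟨rfl, rfl⟩⟩, hB hk⟩
    · rintro ⟨h1, ⟨c, ⟨rfl, h2⟩ | ⟨rfl, rfl⟩, ⟨rfl, h3⟩ | ⟨h3, rfl⟩⟩, h4⟩
      · exact Or.inl ⟨rfl, h1⟩
      · exact (hne _ h1 h3).elim
      · exact (hne _ h4 rfl).elim
      · exact Or.inr ⟨rfl, rfl⟩
  -- the initial set of labels
  obtain ⟨W0, hW0, hW0'⟩ := ρ.loc_transfer hn hnl
    ((⋃ i ∈ A, ρ.SS (tt i)) ∪ ⋃ k ∈ B, ρ.SS (ss k)) (by
      rintro m (hm | hm) <;> simp only [Set.mem_iUnion] at hm <;>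
        obtain ⟨_, _, hm⟩ := hm <;> exact hm.1)
  have hW0c : (ρ.loc n hn hnl).nc W0 ≤ 64 * μ := by
    have h1 := pts_union (ρ.ψ ρ.g) (⋃ i ∈ A, ρ.SS (tt i)) (⋃ k ∈ B, ρ.SS (ss k))
    have h2 := pts_biUnion (ρ.ψ ρ.g) A (fun i => ρ.SS (tt i)) μ fun i hi => (htt i hi).2
    have h3 := pts_biUnion (ρ.ψ ρ.g) B (fun k => ρ.SS (ss k)) μ fun k hk => (hss k hk).2
    have h4 := cnt_le_two_pts (O := O) ((ρ.loc n hn hnl).ψ (ρ.loc n hn hnl).g) W0
    rw [hAc] at h2; rw [hBc] at h3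
    unfold Rep.np at hW0
    unfold Rep.nc
    omega
  -- iteration over the pairs
  have main : ∀ s : Finset (V × V), s ⊆ A ×ˢ B → ∃ (ρ' : Rep O T) (W : Set L),
      Lift ρ'.g (NE U0 s) ∧ Faith ρ' Lift ∧
      (∀ p ∈ A ×ˢ B, ρ'.SS (ρ'.g * y p * ρ'.g) ⊆ W) ∧ 2 * ρ'.nc W + s.card * 2 ^ t ≤ 128 * μ := by
    intro s
    induction s using Finset.induction_on with
    | empty =>
      intro _
      refine ⟨ρ.loc n hn hnl, W0, by rw [← hNE]; exact hnL, h.faith.loc hn hnl, ?_,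
        by simp only [Finset.card_empty]; omega⟩
      rintro ⟨i, k⟩ hp
      obtain ⟨hi, hk⟩ := Finset.mem_product.1 hp
      have hti := h.loc _ _ (htt i hi).1
      have hsk := h.loc _ _ (hss k hk).1
      have h1 := hW0' (tt i * ss k) (hti.mul hsk) ((ρ.SS_mul hti hsk).trans
        (Set.union_subset_union (Set.subset_biUnion_of_mem (u := fun i => ρ.SS (tt i)) hi)
          (Set.subset_biUnion_of_mem (u := fun k => ρ.SS (ss k)) hk)))
      have h2 := loc_sandwich hn (tt i * ss k)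
      show (ρ.loc n hn hnl).SS (n * (n * (tt i * ss k) * n) * n) ⊆ W0
      rw [h2.1, h2.2]; exact h1
    | insert p s hp ihs =>
      intro hsub
      have hs : s ⊆ A ×ˢ B := (Finset.subset_insert _ _).trans hsub
      have hpAB : p ∈ A ×ˢ B := hsub (Finset.mem_insert_self _ _)
      have hp1 : {p} ⊆ A ×ˢ B := Finset.singleton_subset_iff.2 hpAB
      obtain ⟨ρ', W, a1, a2, a3, a4⟩ := ihs hs
      have hmul := fun (s s' : Finset (V × V)) => NE_mul (s := s) (s' := s') hA hB hAB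
      have hz : Lift (ρ'.g * y p * ρ'.g) (NE U0 (insert p s)) := by
        have := h.mul _ _ _ _ (h.mul _ _ _ _ a1 (hy p hpAB)) a1
        rw [hmul _ _ hs hp1, hmul _ _ (Finset.union_subset hs hp1) hs] at this
        convert this using 2
        ext q; simp only [Finset.mem_insert, Finset.mem_union, Finset.mem_singleton]; tauto
      obtain ⟨m, hq, hqL⟩ := h.mul.exists_idem hz (by rw [hmul _ _ hsub hsub, Finset.union_self])
      have hzl := loc_sandwich ρ'.idem (y p)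
      have hql := hzl.pow m
      have hSq := (ρ'.SS_pow hzl m).trans (a3 p hpAB)
      set q := (ρ'.g * y p * ρ'.g) ^ (m + 1) with hqdef
      obtain ⟨W', b1, b2⟩ := ρ'.small_step hq hql W hSq
      refine ⟨ρ'.loc q hq hql, W', hqL, a2.loc hq hql, ?_, ?_⟩
      · intro p' hp'
        have := b2 _ (loc_sandwich ρ'.idem (y p')) (a3 p' hp')
        show (ρ'.loc q hq hql).SS (q * y p' * q) ⊆ W'
        convert this using 2
        simp only [mul_assoc]
        rw [hql.1, ← mul_assoc q ρ'.g, hql.2]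
      · obtain ⟨i, k⟩ := p
        obtain ⟨hi, hk⟩ := Finset.mem_product.1 hpAB
        simp only at hi hk
        let U' := U0 \ (A.erase i ∪ B.erase k)
        have hU' : U' ⊆ U0 := Finset.sdiff_subset
        have hU'c : 2 + 31 * t ≤ U'.card := by
          have h1 : (A.erase i ∪ B.erase k).card ≤ 30 := by
            have := Finset.card_union_le (A.erase i) (B.erase k)
            rw [Finset.card_erase_of_mem hi, Finset.card_erase_of_mem hk] at this
            omega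
          have h2 := Finset.le_card_sdiff (A.erase i ∪ B.erase k) U0
          show 2 + 31 * t ≤ (U0 \ (A.erase i ∪ B.erase k)).card
          omega
        have hiU : i ∈ U' := by
          simp only [U', Finset.mem_sdiff, Finset.mem_union, Finset.mem_erase]
          exact ⟨hA hi, fun h' => h'.elim (fun h'' => h''.1 rfl)
            (fun h'' => Finset.disjoint_left.1 hAB hi h''.2)⟩
        have hkU : k ∈ U' := by
          simp only [U', Finset.mem_sdiff, Finset.mem_union, Finset.mem_erase]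
          exact ⟨hB hk, fun h' => h'.elim (fun h'' => Finset.disjoint_left.1 hAB h''.2 hk)
            (fun h'' => h''.1 rfl)⟩
        have hik : i ≠ k := fun h' => Finset.disjoint_left.1 hAB hi (h' ▸ hk)
        have hkey : ∀ a b, a ∈ U' → b ∈ U' → (a, b) ∈ A ×ˢ B → a = i ∧ b = k := by
          intro a b ha hb hab
          obtain ⟨h1, h2⟩ := Finset.mem_product.1 hab
          simp only [U', Finset.mem_sdiff, Finset.mem_union, Finset.mem_erase, not_or,
            not_and] at ha hb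
          constructor
          · by_contra h3; exact ha.2.1 h3 h1
          · by_contra h3; exact hb.2.2 h3 h2
        have c1 : NN U' * NE U0 s * NN U' = NN U' := by
          ext a b
          rw [NN_sandwich, NN_def]
          constructor
          · rintro ⟨h1, ⟨rfl, -⟩ | h2, h3⟩
            · exact ⟨rfl, h1⟩
            · obtain ⟨rfl, rfl⟩ := hkey a b h1 h3 (hs h2)
              exact (hp h2).elim
          · rintro ⟨rfl, h1⟩; exact ⟨h1, Or.inl ⟨rfl, hU' h1⟩, h1⟩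
        have c2 : NN U' * NE U0 (insert (i, k) s) * NN U' = NN U' + EE i k := by
          ext a b
          rw [NN_sandwich, Rl.add_def, NN_def, EE_def]
          constructor
          · rintro ⟨h1, ⟨rfl, -⟩ | h2, h3⟩
            · exact Or.inl ⟨rfl, h1⟩
            · exact Or.inr (hkey a b h1 h3 (hsub h2))
          · rintro (⟨rfl, h1⟩ | ⟨rfl, rfl⟩)
            · exact ⟨h1, Or.inl ⟨rfl, hU' h1⟩, h1⟩
            · exact ⟨hiU, Or.inr (Finset.mem_insert_self _ _), hkU⟩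
        have c3 : NE U0 s * NE U0 (insert (i, k) s) * NE U0 s = NE U0 (insert (i, k) s) := by
          rw [hmul _ _ hs hsub, hmul _ _ (Finset.union_subset hs hsub) hs]
          congr 1
          ext q; simp only [Finset.mem_insert, Finset.mem_union]; tauto
        have c4 := ih ρ' Lift (NE U0 s) U' h.mul a2 a1
          (by rw [hmul _ _ hs hs, Finset.union_self]) c1 (hsupp U' (hU'.trans hU0U)) hU'c
          q _ i k hiU hkU hik hql hqL c3 c2
        have c5 : ρ'.np (ρ'.SS q) ≤ ρ'.nc (ρ'.SS q) := pts_le_cnt _ _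
        rw [Finset.card_insert_of_notMem hp, add_mul]
        omega
  obtain ⟨ρ', W, -, -, -, a4⟩ := main (A ×ˢ B) subset_rfl
  rw [Finset.card_product, hAc, hBc] at a4
  rw [pow_succ]
  omega

theorem PP'_all (t : ℕ) : PP' O T V t := by
  induction t with
  | zero => exact PP_zero.rel
  | succ t ih => exact ih.succ.rel

end Crest.Agent.R294
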