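import Mathlib

/-!
Star product of "two-way behaviours" inside a Kleene algebra with a pair of complementary
orthogonal idempotents.
-/

set_option autoImplicit false
open Computability

namespace Crest.Agent.R294

section KA
variable {K : Type*} [KleeneAlgebra K]

theorem kstar_sim {n u v : K} (h : n * u = v * n) : n * u∗ = v∗ * n := by
  apply le_antisymm
  · apply mul_kstar_le
    · exact le_mul_of_one_le_left' one_le_kstar
    · rw [mul_assoc, h, ← mul_assoc]; gcongr; exact kstar_mul_le_kstar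
  · apply kstar_mul_le
    · exact le_mul_of_one_le_right' one_le_kstar
    · rw [← mul_assoc, ← h, mul_assoc]; gcongr; exact mul_kstar_le_kstar

theorem kstar_slide (a b : K) : (a * b)∗ * a = a * (b * a)∗ :=
  (kstar_sim (by rw [mul_assoc])).symm

theorem kstar_denest (a b : K) : (a + b)∗ = (a∗ * b)∗ * a∗ := by
  apply le_antisymm
  · apply kstar_le_of_mul_le_left
    · calc (1 : K) = 1 * 1 := (mul_one 1).symm
        _ ≤ _ := by gcongr <;> exact one_le_kstar
    · rw [mul_add]
      apply add_le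
      · rw [mul_assoc]; gcongr; exact kstar_mul_le_kstar
      · rw [mul_assoc]
        exact kstar_mul_le_kstar.trans (le_mul_of_one_le_right' one_le_kstar)
  · have ha : a∗ ≤ (a + b)∗ := kstar_mono le_self_add
    have hb : b ≤ (a + b)∗ := le_add_self.trans le_kstar
    have h1 : (a∗ * b)∗ ≤ (a + b)∗ := by
      have : a∗ * b ≤ (a + b)∗ := by
        calc a∗ * b ≤ (a + b)∗ * (a + b)∗ := by gcongr
          _ = _ := kstar_mul_kstar _
      calc (a∗ * b)∗ ≤ (a + b)∗∗ := kstar_mono this
        _ = _ := kstar_idem _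
    calc _ ≤ (a + b)∗ * (a + b)∗ := by gcongr
      _ = _ := kstar_mul_kstar _

theorem kstar_mul_kstar' (a x : K) : a∗ * (a∗ * x) = a∗ * x := by
  rw [← mul_assoc, kstar_mul_kstar]

/-- A pair of complementary orthogonal idempotents. -/
structure Ori (K : Type*) [KleeneAlgebra K] where
  P : K
  N : K
  PP : P * P = P
  NN : N * N = N
  PN : P * N = 0
  NP : N * P = 0
  add : P + N = 1

namespace Ori
variable (O : Ori K)

/-- Exchange the two orientations. -/
def flip : Ori K where
  P := O.N
  N := O.P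
  PP := O.NN
  NN := O.PP
  PN := O.NP
  NP := O.PN
  add := by rw [add_comm]; exact O.add

@[simp] theorem flip_P : O.flip.P = O.N := rfl
@[simp] theorem flip_N : O.flip.N = O.P := rfl

theorem PP' (x : K) : O.P * (O.P * x) = O.P * x := by rw [← mul_assoc, O.PP]
theorem NN' (x : K) : O.N * (O.N * x) = O.N * x := by rw [← mul_assoc, O.NN]
theorem PN' (x : K) : O.P * (O.N * x) = 0 := by rw [← mul_assoc, O.PN, zero_mul]
theorem NP' (x : K) : O.N * (O.P * x) = 0 := by rw [← mul_assoc, O.NP, zero_mul]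

theorem P_le : O.P ≤ 1 := by rw [← O.add]; exact le_self_add
theorem N_le : O.N ≤ 1 := by rw [← O.add]; exact le_add_self

def a (x : K) : K := O.P * (x * O.P)
def b (x : K) : K := O.P * (x * O.N)
def c (x : K) : K := O.N * (x * O.P)
def d (x : K) : K := O.N * (x * O.N)

@[simp] theorem flip_a (x : K) : O.flip.a x = O.d x := rfl
@[simp] theorem flip_b (x : K) : O.flip.b x = O.c x := rfl
@[simp] theorem flip_c (x : K) : O.flip.c x = O.b x := rfl
@[simp] theorem flip_d (x : K) : O.flip.d x = O.a x := rfl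

theorem decomp (x : K) : x = O.a x + O.b x + O.c x + O.d x := by
  calc x = (O.P + O.N) * (x * (O.P + O.N)) := by rw [O.add, one_mul, mul_one]
    _ = _ := by simp only [a, b, c, d, mul_add, add_mul]; abel

theorem ext' {x y : K} (ha : O.a x = O.a y) (hb : O.b x = O.b y) (hc : O.c x = O.c y)
    (hd : O.d x = O.d y) : x = y := by
  rw [O.decomp x, O.decomp y, ha, hb, hc, hd]

theorem le_ext {x y : K} (ha : O.a x ≤ y) (hb : O.b x ≤ y) (hc : O.c x ≤ y)
    (hd : O.d x ≤ y) : x ≤ y := by
  rw [O.decomp x]; exact add_le (add_le (add_le ha hb) hc) hd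

theorem a_le (x : K) : O.a x ≤ x := by
  conv_rhs => rw [O.decomp x]
  exact le_self_add.trans (le_self_add.trans le_self_add)
theorem b_le (x : K) : O.b x ≤ x := by
  conv_rhs => rw [O.decomp x]
  exact le_add_self.trans (le_self_add.trans le_self_add)
theorem c_le (x : K) : O.c x ≤ x := O.flip.b_le x
theorem d_le (x : K) : O.d x ≤ x := O.flip.a_le x

@[gcongr] theorem a_mono {x y : K} (h : x ≤ y) : O.a x ≤ O.a y := by unfold a; gcongr
@[gcongr] theorem b_mono {x y : K} (h : x ≤ y) : O.b x ≤ O.b y := by unfold b; gcongr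
@[gcongr] theorem c_mono {x y : K} (h : x ≤ y) : O.c x ≤ O.c y := by unfold c; gcongr
@[gcongr] theorem d_mono {x y : K} (h : x ≤ y) : O.d x ≤ O.d y := by unfold d; gcongr

/-- The star product. -/
def st (x y : K) : K :=
  O.a x * ((O.b y * O.c x)∗ * O.a y) + (O.b x + O.a x * ((O.b y * O.c x)∗ * (O.b y * O.d x)))
    + (O.c y + O.d y * ((O.c x * O.b y)∗ * (O.c x * O.a y))) + O.d y * ((O.c x * O.b y)∗ * O.d x)

theorem flip_st (x y : K) : O.flip.st x y = O.st y x := by
  simp only [st, flip_a, flip_b, flip_c, flip_d]; abel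

/-- normalisation of orthogonal idempotents -/
macro "ori_simp" : tactic =>
  `(tactic| simp only [Ori.a, Ori.b, Ori.c, Ori.d, mul_add, add_mul, mul_assoc, Ori.PP', Ori.NN',
      Ori.PN', Ori.NP', Ori.PP, Ori.NN, Ori.PN, Ori.NP, mul_zero, zero_mul, add_zero, zero_add,
      mul_one, one_mul, kstar_zero])

theorem st_a (x y : K) : O.a (O.st x y) = O.a x * ((O.b y * O.c x)∗ * O.a y) := by
  unfold st; ori_simp
theorem st_b (x y : K) :
    O.b (O.st x y) = O.b x + O.a x * ((O.b y * O.c x)∗ * (O.b y * O.d x)) := by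
  unfold st; ori_simp
theorem st_c (x y : K) :
    O.c (O.st x y) = O.c y + O.d y * ((O.c x * O.b y)∗ * (O.c x * O.a y)) := by
  unfold st; ori_simp
theorem st_d (x y : K) : O.d (O.st x y) = O.d y * ((O.c x * O.b y)∗ * O.d x) := by
  unfold st; ori_simp

@[gcongr] theorem st_mono {x y x' y' : K} (hx : x ≤ x') (hy : y ≤ y') :
    O.st x y ≤ O.st x' y' := by
  unfold st; gcongr

theorem N_kstar_cup (y z : K) : O.N * (y * O.b z)∗ = (O.c y * O.b z)∗ * O.N := by
  apply kstar_sim; ori_simp

theorem P_kstar_cup (y z : K) :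
    O.P * (y * O.b z)∗ = O.P + O.a y * (O.b z * ((O.c y * O.b z)∗ * O.N)) := by
  rw [← O.N_kstar_cup]
  conv_lhs => rw [← one_add_mul_kstar]
  ori_simp

theorem cup_a (y z : K) : O.a ((y * O.b z)∗ * y) = O.a y * (O.b z * O.c y)∗ := by
  have h : O.a ((y * O.b z)∗ * y) = (O.P * (y * O.b z)∗) * (y * O.P) := by
    simp only [a, mul_assoc]
  rw [h, P_kstar_cup]
  conv_rhs => rw [← one_add_mul_kstar, mul_assoc (O.b z), ← kstar_slide]
  ori_simp

theorem cup_b (y z : K) : O.b ((y * O.b z)∗ * y) = O.b (O.st y z) := by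
  have h : O.b ((y * O.b z)∗ * y) = (O.P * (y * O.b z)∗) * (y * O.N) := by
    simp only [b, mul_assoc]
  rw [h, P_kstar_cup, st_b, ← mul_assoc (O.b z * O.c y)∗, kstar_slide]
  ori_simp

theorem cup_c (y z : K) : O.c ((y * O.b z)∗ * y) = (O.c y * O.b z)∗ * O.c y := by
  have h : O.c ((y * O.b z)∗ * y) = (O.N * (y * O.b z)∗) * (y * O.P) := by
    simp only [c, mul_assoc]
  rw [h, N_kstar_cup]
  ori_simp

theorem cup_d (y z : K) : O.d ((y * O.b z)∗ * y) = (O.c y * O.b z)∗ * O.d y := by
  have h : O.d ((y * O.b z)∗ * y) = (O.N * (y * O.b z)∗) * (y * O.N) := by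
    simp only [d, mul_assoc]
  rw [h, N_kstar_cup]
  ori_simp

theorem cap_d (y z : K) : O.d ((y * O.c z)∗ * y) = O.d y * (O.c z * O.b y)∗ := O.flip.cup_a y z
theorem cap_c (y z : K) : O.c ((y * O.c z)∗ * y) = O.c (O.st z y) := by
  rw [← O.flip_st]; exact O.flip.cup_b y z
theorem cap_b (y z : K) : O.b ((y * O.c z)∗ * y) = (O.b y * O.c z)∗ * O.b y := O.flip.cup_c y z
theorem cap_a (y z : K) : O.a ((y * O.c z)∗ * y) = (O.b y * O.c z)∗ * O.a y := O.flip.cup_d y z

/-- entering the middle factor -/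
def inn (x z : K) : K := O.a x + O.d z
/-- returning to the middle factor -/
def mid (x z : K) : K := O.b z + O.c x
/-- leaving the middle factor -/
def out (x z : K) : K := O.a z + O.d x

/-- the triple product seen from the middle factor -/
def tri (x y z : K) : K := O.b x + O.c z + O.inn x z * ((y * O.mid x z)∗ * (y * O.out x z))

theorem flip_tri (x y z : K) : O.flip.tri x y z = O.tri z y x := by
  simp only [tri, inn, mid, out, flip_a, flip_b, flip_c, flip_d, add_comm]

theorem tri_eq_right (x y z : K) : O.tri x y z = O.st x (O.st y z) := by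
  set u := (y * O.b z)∗ * y with hu
  set v := (u * O.c x)∗ * u with hv
  have h1 : (y * O.mid x z)∗ * (y * O.out x z) = v * O.out x z := by
    rw [mid, mul_add, kstar_denest, hv, hu]; simp only [mul_assoc]
  have ha : O.a (O.st y z) = O.a u * O.a z := by rw [st_a, hu, cup_a, mul_assoc]
  have hb : O.b (O.st y z) = O.b u := by rw [hu, cup_b]
  have hc : O.c (O.st y z) = O.c z + O.d z * (O.c u * O.a z) := by
    rw [st_c, hu, cup_c, mul_assoc]
  have hd : O.d (O.st y z) = O.d z * O.d u := by rw [st_d, hu, cup_d]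
  unfold tri
  rw [h1]
  apply O.ext'
  · have : O.a (O.b x + O.c z + O.inn x z * (v * O.out x z)) = O.a x * (O.a v * O.a z) := by
      unfold inn out; ori_simp
    rw [this, st_a, ha, hb, hv, cap_a, mul_assoc]
  · have : O.b (O.b x + O.c z + O.inn x z * (v * O.out x z))
        = O.b x + O.a x * (O.b v * O.d x) := by
      unfold inn out; ori_simp
    rw [this, st_b, hb, hv, cap_b, mul_assoc]
  · have : O.c (O.b x + O.c z + O.inn x z * (v * O.out x z))
        = O.c z + O.d z * (O.c v * O.a z) := by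
      unfold inn out; ori_simp
    rw [this, st_c, ha, hb, hc, hd, hv, cap_c, st_c]
    simp only [mul_add, add_mul, mul_assoc, add_assoc]
  · have : O.d (O.b x + O.c z + O.inn x z * (v * O.out x z)) = O.d z * (O.d v * O.d x) := by
      unfold inn out; ori_simp
    rw [this, st_d, hb, hd, hv, cap_d]
    simp only [mul_assoc]

theorem tri_eq (x y z : K) : O.tri x y z = O.st (O.st x y) z := by
  rw [← O.flip_tri, tri_eq_right, flip_st, flip_st]

theorem st_assoc (x y z : K) : O.st (O.st x y) z = O.st x (O.st y z) := by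
  rw [← tri_eq, tri_eq_right]

theorem P_kstar_J (y z : K) : O.P * (O.b y * O.c z)∗ = (O.b y * O.c z)∗ * O.P := by
  apply kstar_sim; ori_simp

theorem one_st (x : K) : O.st 1 x = x := by
  apply O.ext'
  · rw [st_a]; ori_simp
  · rw [st_b]; ori_simp
  · rw [st_c]; ori_simp
  · rw [st_d]; ori_simp

theorem st_one (x : K) : O.st x 1 = x := by rw [← O.flip_st, one_st]

theorem st_eq (x z : K) :
    O.st x z = O.b x + O.c z + O.inn x z * ((O.mid x z)∗ * O.out x z) := by
  have := O.tri_eq_right x 1 z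
  rw [one_st] at this
  rw [← this, tri, one_mul, one_mul]

/-- adding caps on the right -/
theorem st_cap (x z : K) : O.st x (1 + O.c z) = x + O.c z := by
  apply O.ext'
  · rw [st_a]; ori_simp
  · rw [st_b]; ori_simp
  · rw [st_c]; ori_simp; rw [add_comm]
  · rw [st_d]; ori_simp

theorem cup_st (x z : K) : O.st (1 + O.b z) x = x + O.b z := by
  rw [← O.flip_st]; exact O.flip.st_cap x z

theorem a_mul_a_le (x y : K) : O.a x * O.a y ≤ O.a (O.st x y) := by
  rw [st_a]; gcongr; exact le_mul_of_one_le_left' one_le_kstar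

theorem d_mul_d_le (x y : K) : O.d y * O.d x ≤ O.d (O.st x y) := by
  rw [← O.flip_st]; exact O.flip.a_mul_a_le y x

theorem b_le_st (x y : K) : O.b x ≤ O.b (O.st x y) := by rw [st_b]; exact le_self_add
theorem c_le_st (x y : K) : O.c y ≤ O.c (O.st x y) := by rw [st_c]; exact le_self_add

theorem abd_le (x y : K) : O.a x * (O.b y * O.d x) ≤ O.b (O.st x y) := by
  rw [st_b]; refine le_trans ?_ le_add_self
  exact mul_right_mono (le_mul_of_one_le_left' one_le_kstar)

theorem dca_le (x y : K) : O.d y * (O.c x * O.a y) ≤ O.c (O.st x y) := by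
  rw [← O.flip_st]; exact O.flip.abd_le y x

theorem b_test {D : K} (h : D ≤ 1) : O.b D = 0 := by
  apply le_antisymm _ zero_le
  calc O.b D ≤ O.b 1 := O.b_mono h
    _ = 0 := by ori_simp

theorem c_test {D : K} (h : D ≤ 1) : O.c D = 0 := O.flip.b_test h

theorem ad_test {D : K} (h : D ≤ 1) : O.a D + O.d D = D := by
  conv_rhs => rw [O.decomp D, O.b_test h, O.c_test h, add_zero, add_zero]

theorem tri_test {D : K} (h : D ≤ 1) (x : K) : O.st (O.st D x) D = D * (x * D) := by
  rw [← tri_eq, tri, inn, mid, out, O.b_test h, O.c_test h, O.ad_test h]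
  simp only [add_zero, mul_zero, kstar_zero, one_mul, zero_add]

theorem st_test {D : K} (h : D ≤ 1) (h2 : D * D = D) : O.st D D = D := by
  have := O.tri_test h 1
  rw [st_one, one_mul, h2] at this
  exact this

/-- left cap closure -/
def l (G : K) : K := 1 + O.c G
/-- right cup closure -/
def r (G : K) : K := 1 + O.b G

theorem flip_l (G : K) : O.flip.l G = O.r G := rfl
theorem flip_r (G : K) : O.flip.r G = O.l G := rfl
theorem one_le_l (G : K) : 1 ≤ O.l G := le_self_add
theorem one_le_r (G : K) : 1 ≤ O.r G := le_self_add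

theorem st_l (G : K) : O.st G (O.l G) = G := by
  rw [l, st_cap]; exact (O.c_le G).add_eq_left
theorem r_st (G : K) : O.st (O.r G) G = G := by
  rw [r, cup_st]; exact (O.b_le G).add_eq_left

theorem le_l_st (G x : K) : x ≤ O.st (O.l G) x := by
  conv_lhs => rw [← O.one_st x]
  gcongr; exact O.one_le_l G
theorem le_st_r (G x : K) : x ≤ O.st x (O.r G) := by
  conv_lhs => rw [← O.st_one x]
  gcongr; exact O.one_le_r G

theorem r_l_st (G : K) : O.st (O.r G) (O.st (O.l G) G) = O.st (O.l G) G := by
  rw [r, cup_st]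
  exact ((O.b_le G).trans (O.le_l_st G G)).add_eq_left

theorem rl_absorb {G : K} (h : O.st G G = G) :
    O.st (O.st G (O.r G)) (O.st (O.l G) G) = G := by
  rw [st_assoc, r_l_st, ← st_assoc, st_l, h]

/-- closing a behaviour by the caps and cups of `G` -/
def clo (G y : K) : K := O.st (O.st (O.l G) y) (O.r G)

theorem flip_clo (G y : K) : O.flip.clo G y = O.clo G y := by
  rw [clo, clo, flip_st, flip_st, flip_l, flip_r, st_assoc]

theorem clo_eq (G y : K) : O.clo G y = (y * (O.b G + O.c G))∗ * y := by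
  have h1 : O.inn (O.l G) (O.r G) = 1 := by
    rw [← O.add]; unfold inn l r; ori_simp
  have h2 : O.out (O.l G) (O.r G) = 1 := by
    rw [← O.add]; unfold out l r; ori_simp
  have h3 : O.mid (O.l G) (O.r G) = O.b G + O.c G := by
    unfold mid l r; ori_simp
  have h4 : O.b (O.l G) = 0 := by unfold l; ori_simp
  have h5 : O.c (O.r G) = 0 := by unfold r; ori_simp
  rw [clo, ← tri_eq, tri, h1, h2, h3, h4, h5]
  simp only [add_zero, zero_add, one_mul, mul_one]

theorem le_clo (G y : K) : y ≤ O.clo G y := (O.le_l_st G y).trans (O.le_st_r G _)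

theorem l_st_a (G : K) : O.a (O.st (O.l G) G) = (O.b G * O.c G)∗ * O.a G := by
  have h1 : O.a (O.l G) = O.P := by unfold l; ori_simp
  have h2 : O.c (O.l G) = O.c G := by unfold l; ori_simp
  rw [st_a, h1, h2, ← mul_assoc, P_kstar_J]; ori_simp

theorem st_r_a (G : K) : O.a (O.st G (O.r G)) = O.a G * (O.b G * O.c G)∗ := by
  have h1 : O.a (O.r G) = O.P := by unfold r; ori_simp
  have h2 : O.b (O.r G) = O.b G := by unfold r; ori_simp
  rw [st_a, h1, h2, ← P_kstar_J]; ori_simp

theorem clo_a {G : K} (h : O.st G G = G) :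
    O.a (O.clo G G) = (O.b G * O.c G)∗ * (O.a G * (O.b G * O.c G)∗) := by
  have h1 : O.a (O.r G) = O.P := by unfold r; ori_simp
  have h2 : O.b (O.r G) = O.b G := by unfold r; ori_simp
  have h3 : O.c (O.st (O.l G) G) = O.c G := by
    have h4 : O.c (O.l G) = O.c G := by unfold l; ori_simp
    rw [st_c, h4, ← st_c, h]
  rw [clo, st_a, l_st_a, h1, h2, h3, ← P_kstar_J]; ori_simp

end Ori
end KA

end Crest.Agent.R294
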