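import Crest.Agent.R294.Core

/-!
Localisation at an idempotent behaviour and the small step inequality.
-/

set_option autoImplicit false
open Computability

namespace Crest.Agent.R294

universe u

namespace Ori
variable {L : Type u} {O : Ori (Rl L)}

/-- localisation of `y` at `G` -/
def lz (O : Ori (Rl L)) (G y : Rl L) : Rl L :=
  O.st (O.st (dg (O.clo G G)) (O.clo G y)) (dg (O.clo G G))

theorem lz_iff (G y : Rl L) (p q : L) :
    O.lz G y p q ↔ O.clo G G p p ∧ O.clo G y p q ∧ O.clo G G q q := O.tri_dg_iff _ _ _ _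

theorem lz_eq (G y : Rl L) : O.lz G y = O.st (dg (O.clo G G))
    (O.st (O.l G) (O.st y (O.st (O.r G) (dg (O.clo G G))))) := by
  unfold lz
  generalize dg (O.clo G G) = D
  unfold clo
  simp only [st_assoc]

theorem flip_lz (G y : Rl L) : O.flip.lz G y = O.lz G y := by
  ext p q; rw [lz_iff, lz_iff, flip_clo, flip_clo]

theorem lz_self_loop (G : Rl L) (p : L) : O.lz G G p p ↔ O.clo G G p p := by
  rw [lz_iff]; simp only [and_self]

theorem lz_mono (G : Rl L) {y y' : Rl L} (h : y ≤ y') : O.lz G y ≤ O.lz G y' := by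
  unfold lz clo; gcongr

theorem aJa {G : Rl L} (hG : O.st G G = G) :
    O.a G * ((O.b G * O.c G)∗ * O.a G) = O.a G := by rw [← st_a, hG]

theorem clo_a_idem {G : Rl L} (hG : O.st G G = G) :
    O.a (O.clo G G) * O.a (O.clo G G) = O.a (O.clo G G) := by
  rw [O.clo_a hG]
  simp only [mul_assoc, kstar_mul_kstar']
  rw [← mul_assoc (O.b G * O.c G)∗ (O.a G) (O.b G * O.c G)∗, ← mul_assoc (O.a G), aJa hG,
    mul_assoc]

theorem k1_a [Finite L] {G : Rl L} (hG : O.st G G = G) :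
    O.a G ≤ O.st (O.st (O.st G (O.r G)) (dg (O.clo G G))) (O.st (O.l G) G) := by
  set J := (O.b G * O.c G)∗ with hJ
  set A := O.a (O.clo G G) with hA
  have hA' : A = J * (O.a G * J) := O.clo_a hG
  have h1 : A ≤ A * (Rl.diag {p | A p p} * A) := Rl.idem_le (clo_a_idem hG)
  have h2 : Rl.diag {p | A p p} ≤ O.a (dg (O.clo G G)) := by
    rw [Rl.diag_le]
    intro p hp
    have := (O.a_iff _ _ _).1 hp
    exact (O.a_iff _ _ _).2 ⟨this.1, ⟨rfl, this.2.1⟩, this.1⟩
  have h3 : O.a G * (J * O.a G) = O.a G := aJa hG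
  have h3' : ∀ x, O.a G * (J * (O.a G * x)) = O.a G * x := fun x => by
    rw [← mul_assoc J, ← mul_assoc, h3]
  calc O.a G = O.a G * (A * O.a G) := by rw [hA']; simp only [mul_assoc, h3]
    _ ≤ O.a G * (A * (O.a (dg (O.clo G G)) * A) * O.a G) := by
      gcongr; exact h1.trans (by gcongr)
    _ = (O.a (O.st G (O.r G)) * O.a (dg (O.clo G G))) * O.a (O.st (O.l G) G) := by
      rw [st_r_a, l_st_a, hA', ← hJ]; simp only [mul_assoc, h3', h3]
    _ ≤ O.a (O.st (O.st G (O.r G)) (dg (O.clo G G))) * O.a (O.st (O.l G) G) := by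
      gcongr; exact O.a_mul_a_le _ _
    _ ≤ _ := (O.a_mul_a_le _ _).trans (O.a_le _)

theorem k1 [Finite L] {G : Rl L} (hG : O.st G G = G) :
    O.st (O.st (O.st G (O.r G)) (dg (O.clo G G))) (O.st (O.l G) G) = G := by
  apply le_antisymm
  · calc _ ≤ O.st (O.st (O.st G (O.r G)) 1) (O.st (O.l G) G) := by gcongr; exact dg_le_one _
      _ = G := by rw [st_one, O.rl_absorb hG]
  · refine O.le_ext ?_ ?_ ?_ ?_
    · exact k1_a hG
    · calc O.b G ≤ O.b (O.st G (O.r G)) := O.b_le_st _ _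
        _ ≤ O.b (O.st (O.st G (O.r G)) (dg (O.clo G G))) := O.b_le_st _ _
        _ ≤ _ := (O.b_le_st _ _).trans (O.b_le _)
    · calc O.c G ≤ O.c (O.st (O.l G) G) := O.c_le_st _ _
        _ ≤ _ := (O.c_le_st _ _).trans (O.c_le _)
    · have := k1_a (O := O.flip) (G := G) (by rw [flip_st]; exact hG)
      rw [flip_st, flip_st, flip_st, flip_st, flip_clo, flip_l, flip_r, flip_a, ← st_assoc] at this
      exact this

theorem lz_st [Finite L] {G y y' : Rl L} (hG : O.st G G = G) (hy : O.st y G = y)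
    (hy' : O.st G y' = y') : O.st (O.lz G y) (O.lz G y') = O.lz G (O.st y y') := by
  have h := k1 hG
  set D := dg (O.clo G G) with hD
  have hDD : ∀ x, O.st D (O.st D x) = O.st D x := fun x => by rw [← st_assoc, hD, st_dg_dg]
  have h2 : O.st y (O.st (O.r G) (O.st D (O.st (O.l G) y'))) = O.st y y' := by
    calc _ = O.st (O.st y G) (O.st (O.r G) (O.st D (O.st (O.l G) (O.st G y')))) := by
          rw [hy, hy']
      _ = O.st y (O.st (O.st (O.st (O.st G (O.r G)) D) (O.st (O.l G) G)) y') := by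
          simp only [st_assoc]
      _ = _ := by rw [h, hy']
  unfold lz
  rw [← hD]
  unfold clo
  rw [← h2]
  simp only [st_assoc, hDD]

theorem lz_reflect [Finite L] {G y : Rl L} (hG : O.st G G = G) (hy : Sub O G y) :
    O.st (O.st (O.st G (O.r G)) (O.lz G y)) (O.st (O.l G) G) = y := by
  have h := k1 hG
  set D := dg (O.clo G G) with hD
  calc _ = O.st (O.st (O.st G (O.r G)) (O.lz G (O.st (O.st G y) G))) (O.st (O.l G) G) := by
        rw [hy.left, hy.right]
    _ = O.st (O.st (O.st (O.st (O.st G (O.r G)) D) (O.st (O.l G) G)) y)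
        (O.st (O.st (O.st G (O.r G)) D) (O.st (O.l G) G)) := by
        unfold lz; rw [← hD]; unfold clo; simp only [st_assoc]
    _ = y := by rw [h, hy.left, hy.right]

theorem lz_le_reflect [Finite L] {G y y' : Rl L} (hG : O.st G G = G) (hy : Sub O G y)
    (hy' : Sub O G y') (h : O.lz G y ≤ O.lz G y') : y ≤ y' := by
  rw [← lz_reflect hG hy, ← lz_reflect hG hy']; gcongr

theorem lz_isE [Finite L] {G : Rl L} (hG : O.st G G = G) : O.IsE (O.lz G G) where
  idem := by rw [lz_st hG hG hG, hG]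
  supp p q h := by
    rw [lz_self_loop, lz_self_loop]; rw [lz_iff] at h; exact ⟨h.1, h.2.2⟩

theorem lz_sub [Finite L] {G y : Rl L} (hG : O.st G G = G) (hy : Sub O G y) :
    Sub O (O.lz G G) (O.lz G y) :=
  ⟨by rw [lz_st hG hG hy.left, hy.left], by rw [lz_st hG hy.right hG, hy.right]⟩

theorem clo_first {G y : Rl L} {p q : L} (h : O.clo G y p q) :
    ∃ m, y p m ∧ ∀ p', y p' m → O.clo G y p' q := by
  rw [clo_eq, kstar_slide] at h
  obtain ⟨m, h1, h2⟩ := h
  refine ⟨m, h1, fun p' h' => ?_⟩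
  rw [clo_eq, kstar_slide]; exact ⟨m, h', h2⟩

theorem Sub.clo_supp {e G : Rl L} (he : O.IsE e) (h : Sub O e G) {p q : L}
    (hp : O.clo G G p q) : e p p := by
  obtain ⟨m, h1, -⟩ := clo_first hp
  exact (h.supp he h1).1

theorem Sub.clo_edge {e G : Rl L} (he : O.IsE e) (h : Sub O e G) {p q : L} (h1 : e p q)
    (hq : O.clo G G q q) : O.clo G G p q := by
  by_cases hpq : O.pos p ↔ O.pos q
  · obtain ⟨m, h2, h3⟩ := clo_first hq
    exact h3 p (h.pre he hpq h1 h2)
  · exact O.le_clo G G p q (h.turn hpq h1)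

theorem Sub.lz_edge {e G : Rl L} (he : O.IsE e) (h : Sub O e G) {p q : L} (h1 : e p q)
    (hp : O.lz G G p p) (hq : O.lz G G q q) : O.lz G G p q := by
  rw [lz_self_loop] at hp hq
  exact (lz_iff _ _ _ _).2 ⟨hp, h.clo_edge he h1 hq, hq⟩

theorem two_labels_pos {G : Rl L} (hG : O.st G G = G) {p : L} (hp : O.pos p)
    (h : O.lz G G p p) : ∃ m m', O.pos m ∧ O.pos m' ∧ G m m' ∧ O.lz G G p m ∧ O.lz G G m p ∧
      O.lz G G p m' ∧ O.lz G G m' p := by
  rw [lz_self_loop] at h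
  set J := (O.b G * O.c G)∗ with hJ
  set A := O.a (O.clo G G) with hA
  have hA' : A = J * (O.a G * J) := O.clo_a hG
  have hAA : A * A = A := clo_a_idem hG
  have htr : ∀ a b c, A a b → A b c → A a c := fun a b c h1 h2 => by
    rw [← hAA]; exact ⟨b, h1, h2⟩
  have hpp : A p p := (O.a_iff _ _ _).2 ⟨hp, h, hp⟩
  have hAJ : A * J = A := by rw [hA']; simp only [mul_assoc, hJ, kstar_mul_kstar]
  have hJA : J * A = A := by rw [hA']; simp only [hJ, kstar_mul_kstar']
  have hle : ∀ a b, A a b → O.clo G G a b := O.a_le _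
  have hpp' := hpp
  rw [hA'] at hpp'
  obtain ⟨m, h1, m', h2, h3⟩ := hpp'
  have h4 : A p m := by rw [← hAJ]; exact ⟨p, hpp, h1⟩
  have h5 : A m p := by rw [hA']; exact ⟨m, Relation.ReflTransGen.refl, m', h2, h3⟩
  have h6 : A p m' := by rw [hA']; exact ⟨m, h1, m', h2, Relation.ReflTransGen.refl⟩
  have h7 : A m' p := by rw [← hJA]; exact ⟨p, h3, hpp⟩
  have h8 := hle _ _ (htr _ _ _ h5 h4)
  have h9 := hle _ _ (htr _ _ _ h7 h6)
  rw [a_iff] at h2
  refine ⟨m, m', h2.1, h2.2.2, h2.2.1, ?_, ?_, ?_, ?_⟩ <;> rw [lz_iff]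
  · exact ⟨h, hle _ _ h4, h8⟩
  · exact ⟨h8, hle _ _ h5, h⟩
  · exact ⟨h, hle _ _ h6, h9⟩
  · exact ⟨h9, hle _ _ h7, h⟩

theorem two_labels {G : Rl L} (hG : O.st G G = G) {p : L}
    (h : O.lz G G p p) : ∃ m m', (O.pos m ↔ O.pos p) ∧ (O.pos m' ↔ O.pos p) ∧ G m m' ∧
      O.lz G G p m ∧ O.lz G G m p ∧ O.lz G G p m' ∧ O.lz G G m' p := by
  rcases O.pos_or_neg p with hp | hp
  · obtain ⟨m, m', h1, h2, h3⟩ := two_labels_pos hG hp h
    exact ⟨m, m', by tauto, by tauto, h3⟩
  · obtain ⟨m, m', h1, h2, h3⟩ := two_labels_pos (O := O.flip) (G := G)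
      (by rw [flip_st]; exact hG) hp (by rw [flip_lz]; exact h)
    rw [flip_lz] at h3
    rw [flip_pos, neg_iff] at h1 h2
    rw [neg_iff] at hp
    exact ⟨m, m', by tauto, by tauto, h3⟩

theorem loc_transfer [Finite L] {e G : Rl L} (he : O.IsE e) (hG : O.st G G = G) (h : Sub O e G)
    (B : Set L) (hB : ∀ m ∈ B, e m m) :
    ∃ W, pts (O.lz G G) W ≤ pts e B ∧
      ∀ y, S e y ⊆ B → S (O.lz G G) (O.lz G (O.st (O.st G y) G)) ⊆ W := by
  obtain ⟨W, h1, h2⟩ := transfer (X := O.st (dg (O.clo G G)) (O.st (O.l G) G))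
    (Z := O.st G (O.st (O.r G) (dg (O.clo G G)))) he (lz_isE hG)
    (by rw [st_assoc, st_assoc, h.right])
    (by
      rw [lz_eq]
      simp only [st_assoc]
      rw [← O.st_assoc G G, hG]) B hB
  refine ⟨W, h1, fun y hy => ?_⟩
  have := h2 y hy
  convert this using 2
  rw [lz_eq]
  simp only [st_assoc]

theorem small_step [Finite L] {e G : Rl L} (he : O.IsE e) (hG : O.st G G = G) (h : Sub O e G)
    (W : Set L) (hW : S e G ⊆ W) :
    ∃ W', 2 * cnt O (O.lz G G) W' + cnt O e (S e G) ≤ 2 * cnt O e W ∧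
      ∀ y, S e y ⊆ W → S (O.lz G G) (O.lz G (O.st (O.st G y) G)) ⊆ W' := by
  have he' : O.IsE (O.lz G G) := lz_isE hG
  set e' := O.lz G G with he'd
  have hR : ∀ p, e' p p → e p p := fun p hp => h.clo_supp he ((lz_self_loop _ _).1 hp)
  let F : L → L → Prop := fun p m => e' p m ∧ e' m p ∧ (O.pos m ↔ O.pos p)
  have hF : ∀ p p' m m', F p m → F p' m' → ocls O e m = ocls O e m' →
      ocls O e' p = ocls O e' p' := by
    intro p p' m m' h1 h2 h3
    have hm := (he'.supp _ _ h1.1).2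
    have hm' := (he'.supp _ _ h2.1).2
    have h4 := of_cls_eq (hR _ hm') (congrArg Prod.fst h3)
    have h5 : O.pos m = O.pos m' := congrArg Prod.snd h3
    have h6 := h.lz_edge he h4.1 hm hm'
    have h7 := h.lz_edge he h4.2 hm' hm
    refine Prod.ext (he'.cls_eq ?_ ?_) ?_
    · exact he'.trans (he'.trans h1.1 h6) h2.2.1
    · exact he'.trans (he'.trans h2.1 h7) h1.2.1
    · show O.pos p = O.pos p'
      rw [← propext h1.2.2, ← propext h2.2.2, h5]
  let W' : Set L := {p | e' p p ∧ ∀ m, F p m → m ∈ W}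
  refine ⟨W', ?_, ?_⟩
  · let Wv : Set L := {p | p ∈ W' ∧ ∃ m, F p m ∧ G m m}
    let Wn : Set L := {p | p ∈ W' ∧ ∀ m, F p m → ¬ G m m}
    have h1 : cnt O e' W' ≤ cnt O e' Wv + cnt O e' Wn := by
      have : W' = Wv ∪ Wn := by
        ext p
        simp only [Wv, Wn, Set.mem_union, Set.mem_ofPred_eq]
        refine ⟨fun h0 => ?_, fun h0 => h0.elim And.left And.left⟩
        by_cases hp : ∃ m, F p m ∧ G m m
        · exact Or.inl ⟨h0, hp⟩
        · exact Or.inr ⟨h0, fun m h1 h2 => hp ⟨m, h1, h2⟩⟩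
      unfold cnt
      conv_lhs => rw [this, Set.image_union]
      exact Set.ncard_union_le _ _
    have h2 : cnt O e' Wv ≤ cnt O e (W \ S e G) := by
      apply ncard_image_le_of_rel (Set.toFinite _) _ _ F
      · rintro p ⟨hp, m, hm, hm'⟩
        exact ⟨m, ⟨hp.2 m hm, fun h' => h'.2 hm'⟩, hm⟩
      · intro p _ p' _ m _ m' _; exact hF p p' m m'
    have h3 : 2 * cnt O e' Wn ≤ cnt O e (S e G) := by
      apply two_ncard_image_le_of_rel (Set.toFinite _) _ _ F
      · rintro p ⟨hp, hn⟩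
        obtain ⟨m, m', o1, o2, g1, g2, g3, g4, g5⟩ := two_labels hG hp.1
        have f1 : F p m := ⟨g2, g3, o1⟩
        have f2 : F p m' := ⟨g4, g5, o2⟩
        have r1 := hR _ (he'.supp _ _ g2).2
        have r2 := hR _ (he'.supp _ _ g4).2
        refine ⟨m, ⟨r1, hn m f1⟩, m', ⟨r2, hn m' f2⟩, f1, f2, fun h' => hn m f1 ?_⟩
        have h4 := of_cls_eq r2 (congrArg Prod.fst h')
        exact h.post he (o2.trans o1.symm) g1 h4.2
      · intro p _ p' _ m _ m' _; exact hF p p' m m'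
    have h4 : cnt O e (W \ S e G) + cnt O e (S e G) = cnt O e W := by
      unfold cnt
      rw [← Set.ncard_union_eq _ (Set.toFinite _) (Set.toFinite _), ← Set.image_union,
        Set.sdiff_union_of_subset hW]
      rw [Set.disjoint_left]
      rintro _ ⟨m, hm, rfl⟩ ⟨m', hm', h5⟩
      have h6 := of_cls_eq hm'.1 (congrArg Prod.fst h5).symm
      have h7 : O.pos m' = O.pos m := congrArg Prod.snd h5
      have h8 : G m m := by
        by_contra h9
        exact hm.2 ⟨(he.supp _ _ h6.1).1, h9⟩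
      exact hm'.2 (h.loop he (by rw [h7]) h6.2 h8 h6.1)
    omega
  · intro y hy p hp
    refine ⟨hp.1, fun m hm => ?_⟩
    by_contra hmW
    have hm' := (he'.supp _ _ hm.1).2
    have h1 : y m m := by
      by_contra h2; exact hmW (hy ⟨hR _ hm', h2⟩)
    have h2 : G m m := by
      by_contra h2; exact hmW (hW ⟨hR _ hm', h2⟩)
    have h3 : O.lz G (O.st (O.st G y) G) m m := by
      have := (lz_self_loop _ _).1 hm'
      exact (lz_iff _ _ _ _).2 ⟨this, O.le_clo _ _ _ _ (O.st_loop (O.st_loop h2 h1) h2), this⟩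
    have h4 : Sub O G (O.st (O.st G y) G) :=
      ⟨by rw [← st_assoc, ← st_assoc, hG], by rw [st_assoc, hG]⟩
    exact hp.2 ((lz_sub hG h4).loop he' hm.2.2.symm hm.1 h3 hm.2.1)

end Ori

end Crest.Agent.R294
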