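import Crest.Agent.R294.Kleene

/-!
The Kleene algebra of binary relations, and label-level facts on the star product.
-/

set_option autoImplicit false
open Computability

namespace Crest.Agent.R294

universe u

/-- Binary relations with composition. -/
def Rl (L : Type u) : Type u := L → L → Prop

namespace Rl
variable {L : Type u}

@[ext] theorem ext {x y : Rl L} (h : ∀ p q, x p q ↔ y p q) : x = y := by
  funext p q; exact propext (h p q)

instance : Mul (Rl L) := ⟨fun x y p r => ∃ q, x p q ∧ y q r⟩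
instance : One (Rl L) := ⟨fun p q => p = q⟩
instance : Zero (Rl L) := ⟨fun _ _ => False⟩
instance : Add (Rl L) := ⟨fun x y p q => x p q ∨ y p q⟩
instance : LE (Rl L) := ⟨fun x y => ∀ p q, x p q → y p q⟩

theorem mul_def' (x y : Rl L) (p r : L) : (x * y) p r ↔ ∃ q, x p q ∧ y q r := Iff.rfl
theorem one_def' (p q : L) : (1 : Rl L) p q ↔ p = q := Iff.rfl
theorem zero_def' (p q : L) : (0 : Rl L) p q ↔ False := Iff.rfl
theorem add_def' (x y : Rl L) (p q : L) : (x + y) p q ↔ x p q ∨ y p q := Iff.rfl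

instance : AddCommMonoid (Rl L) where
  add_assoc x y z := by ext p q; simp only [add_def', or_assoc]
  zero_add x := by ext p q; simp only [add_def', zero_def', false_or]
  add_zero x := by ext p q; simp only [add_def', zero_def', or_false]
  add_comm x y := by ext p q; simp only [add_def', or_comm]
  nsmul := nsmulRec

instance : Monoid (Rl L) where
  mul_assoc x y z := by
    ext p q; simp only [mul_def']
    constructor
    · rintro ⟨s, ⟨r, h1, h2⟩, h3⟩; exact ⟨r, h1, s, h2, h3⟩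
    · rintro ⟨r, h1, s, h2, h3⟩; exact ⟨s, ⟨r, h1, h2⟩, h3⟩
  one_mul x := by ext p q; simp [mul_def', one_def']
  mul_one x := by ext p q; simp [mul_def', one_def']

instance : Semiring (Rl L) where
  left_distrib x y z := by
    ext p q; simp only [mul_def', add_def', and_or_left, exists_or]
  right_distrib x y z := by
    ext p q; simp only [mul_def', add_def', or_and_right, exists_or]
  zero_mul x := by ext p q; simp [mul_def', zero_def']
  mul_zero x := by ext p q; simp [mul_def', zero_def']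

instance : KleeneAlgebra (Rl L) where
  le_refl _ _ _ h := h
  le_trans _ _ _ h1 h2 p q h := h2 p q (h1 p q h)
  le_antisymm _ _ h1 h2 := Rl.ext fun p q => ⟨h1 p q, h2 p q⟩
  sup := (· + ·)
  le_sup_left _ _ _ _ h := Or.inl h
  le_sup_right _ _ _ _ h := Or.inr h
  sup_le _ _ _ h1 h2 p q h := h.elim (h1 p q) (h2 p q)
  bot := 0
  bot_le _ _ _ h := h.elim
  kstar x := Relation.ReflTransGen x
  one_le_kstar x p q h := by cases h; exact Relation.ReflTransGen.refl
  mul_kstar_le_kstar x p q := by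
    rintro ⟨r, h1, h2⟩; exact Relation.ReflTransGen.head h1 h2
  kstar_mul_le_kstar x p q := by
    rintro ⟨r, h1, h2⟩; exact Relation.ReflTransGen.tail h1 h2
  mul_kstar_le_self x y h p q := by
    rintro ⟨r, h1, h2⟩
    induction h2 with
    | refl => exact h1
    | tail _ h3 ih => exact h _ _ ⟨_, ih, h3⟩
  kstar_mul_le_self x y h p q := by
    rintro ⟨r, h1, h2⟩
    induction h1 using Relation.ReflTransGen.head_induction_on with
    | refl => exact h2
    | head h3 _ ih => exact h _ _ ⟨_, h3, ih⟩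

theorem mul_def (x y : Rl L) (p r : L) : (x * y) p r ↔ ∃ q, x p q ∧ y q r := Iff.rfl
theorem one_def (p q : L) : (1 : Rl L) p q ↔ p = q := Iff.rfl
theorem zero_def (p q : L) : (0 : Rl L) p q ↔ False := Iff.rfl
theorem add_def (x y : Rl L) (p q : L) : (x + y) p q ↔ x p q ∨ y p q := Iff.rfl
theorem le_def (x y : Rl L) : x ≤ y ↔ ∀ p q, x p q → y p q := Iff.rfl
theorem kstar_def (x : Rl L) (p q : L) : (x∗) p q ↔ Relation.ReflTransGen x p q := Iff.rfl

instance [Finite L] : Finite (Rl L) := inferInstanceAs (Finite (L → L → Prop))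

/-- partial identity -/
def diag (S : Set L) : Rl L := fun p q => p = q ∧ p ∈ S

theorem diag_def (S : Set L) (p q : L) : diag S p q ↔ p = q ∧ p ∈ S := Iff.rfl

theorem diag_le_one (S : Set L) : diag S ≤ 1 := fun _ _ h => h.1

theorem diag_le {S : Set L} {x : Rl L} : diag S ≤ x ↔ ∀ p ∈ S, x p p := by
  constructor
  · intro h p hp; exact h p p ⟨rfl, hp⟩
  · rintro h p q ⟨rfl, hp⟩; exact h p hp

theorem diag_mul (S : Set L) (x : Rl L) (p q : L) : (diag S * x) p q ↔ p ∈ S ∧ x p q := by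
  simp only [mul_def, diag_def]
  constructor
  · rintro ⟨r, ⟨rfl, h⟩, h2⟩; exact ⟨h, h2⟩
  · rintro ⟨h, h2⟩; exact ⟨p, ⟨rfl, h⟩, h2⟩

theorem mul_diag (S : Set L) (x : Rl L) (p q : L) : (x * diag S) p q ↔ x p q ∧ q ∈ S := by
  simp only [mul_def, diag_def]
  constructor
  · rintro ⟨r, h2, ⟨rfl, h⟩⟩; exact ⟨h2, h⟩
  · rintro ⟨h2, h⟩; exact ⟨q, h2, ⟨rfl, h⟩⟩

theorem diag_mul_diag (S : Set L) : diag S * diag S = diag S := by
  ext p q; rw [diag_mul, diag_def]; tauto

/-- An idempotent relation on a finite type factors through its loops. -/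
theorem idem_le [Finite L] {A : Rl L} (h : A * A = A) : A ≤ A * (diag {p | A p p} * A) := by
  intro p q hpq
  have htr : ∀ a b c, A a b → A b c → A a c := fun a b c h1 h2 => by
    rw [← h]; exact ⟨b, h1, h2⟩
  have hfac : ∀ a c, A a c → ∃ b, A a b ∧ A b c := fun a c h1 => by
    rw [← h] at h1; exact h1
  -- a sequence of intermediate points
  let X := {m : L // A p m ∧ A m q}
  obtain ⟨m0, hm0⟩ := hfac p q hpq
  have hstep : ∀ m : X, ∃ m' : X, A m.1 m'.1 := fun m => by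
    obtain ⟨m', h1, h2⟩ := hfac _ _ m.2.2
    exact ⟨⟨m', htr _ _ _ m.2.1 h1, h2⟩, h1⟩
  choose f hf using hstep
  let s : ℕ → X := fun n => f^[n] ⟨m0, hm0⟩
  have hs : ∀ i k, A (s i).1 (s (i + k + 1)).1 := by
    intro i k
    induction k with
    | zero =>
      have : s (i + 0 + 1) = f (s i) := by simp only [s, add_zero, Function.iterate_succ_apply']
      rw [this]; exact hf _
    | succ k ih =>
      have : s (i + (k + 1) + 1) = f (s (i + k + 1)) := by
        simp only [s]; rw [← add_assoc, Function.iterate_succ_apply']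
      rw [this]; exact htr _ _ _ ih (hf _)
  obtain ⟨i, j, hij, he⟩ := Finite.exists_ne_map_eq_of_infinite s
  have key : ∃ i, A (s i).1 (s i).1 := by
    rcases lt_or_gt_of_ne hij with hlt | hlt
    · obtain ⟨k, rfl⟩ := Nat.exists_eq_add_of_lt hlt
      exact ⟨i, by have := hs i k; rwa [← he] at this⟩
    · obtain ⟨k, rfl⟩ := Nat.exists_eq_add_of_lt hlt
      exact ⟨j, by have := hs j k; rwa [he] at this⟩
  obtain ⟨i, hi⟩ := key
  exact ⟨(s i).1, (s i).2.1, (diag_mul _ _ _ _).2 ⟨hi, (s i).2.2⟩⟩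

end Rl

namespace Ori
variable {L : Type u} (O : Ori (Rl L))

/-- right-moving labels -/
def pos (p : L) : Prop := O.P p p
/-- left-moving labels -/
def neg (p : L) : Prop := O.N p p

theorem flip_pos (p : L) : O.flip.pos p = O.neg p := rfl
theorem flip_neg (p : L) : O.flip.neg p = O.pos p := rfl

theorem P_iff (p q : L) : O.P p q ↔ p = q ∧ O.pos p := by
  constructor
  · intro h
    have := O.P_le p q h
    cases this; exact ⟨rfl, h⟩
  · rintro ⟨rfl, h⟩; exact h

theorem N_iff (p q : L) : O.N p q ↔ p = q ∧ O.neg p := O.flip.P_iff p q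

theorem pos_or_neg (p : L) : O.pos p ∨ O.neg p := by
  have : (O.P + O.N) p p := by rw [O.add]; rfl
  exact this

theorem not_pos_neg {p : L} (h1 : O.pos p) (h2 : O.neg p) : False := by
  have : (O.P * O.N) p p := ⟨p, h1, h2⟩
  rw [O.PN] at this; exact this

theorem neg_iff (p : L) : O.neg p ↔ ¬ O.pos p :=
  ⟨fun h h' => O.not_pos_neg h' h, fun h => (O.pos_or_neg p).resolve_left h⟩

theorem a_iff (x : Rl L) (p q : L) : O.a x p q ↔ O.pos p ∧ x p q ∧ O.pos q := by
  simp only [a, Rl.mul_def, P_iff]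
  constructor
  · rintro ⟨_, ⟨rfl, h1⟩, _, h2, rfl, h3⟩; exact ⟨h1, h2, h3⟩
  · rintro ⟨h1, h2, h3⟩; exact ⟨p, ⟨rfl, h1⟩, q, h2, rfl, h3⟩

theorem b_iff (x : Rl L) (p q : L) : O.b x p q ↔ O.pos p ∧ x p q ∧ O.neg q := by
  simp only [b, Rl.mul_def, P_iff, N_iff]
  constructor
  · rintro ⟨_, ⟨rfl, h1⟩, _, h2, rfl, h3⟩; exact ⟨h1, h2, h3⟩
  · rintro ⟨h1, h2, h3⟩; exact ⟨p, ⟨rfl, h1⟩, q, h2, rfl, h3⟩

theorem c_iff (x : Rl L) (p q : L) : O.c x p q ↔ O.neg p ∧ x p q ∧ O.pos q := O.flip.b_iff x p q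
theorem d_iff (x : Rl L) (p q : L) : O.d x p q ↔ O.neg p ∧ x p q ∧ O.neg q := O.flip.a_iff x p q

/-- through edges compose -/
theorem st_of_pos {x y : Rl L} {p q r : L} (hp : O.pos p) (hq : O.pos q) (hr : O.pos r)
    (h1 : x p q) (h2 : y q r) : O.st x y p r :=
  O.a_le _ _ _ (O.a_mul_a_le x y p r ⟨q, (O.a_iff _ _ _).2 ⟨hp, h1, hq⟩,
    (O.a_iff _ _ _).2 ⟨hq, h2, hr⟩⟩)

theorem st_of_neg {x y : Rl L} {p q r : L} (hp : O.neg p) (hq : O.neg q) (hr : O.neg r)
    (h1 : y p q) (h2 : x q r) : O.st x y p r := by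
  rw [← O.flip_st]; exact O.flip.st_of_pos hp hq hr h1 h2

theorem st_loop {x y : Rl L} {p : L} (h1 : x p p) (h2 : y p p) : O.st x y p p := by
  rcases O.pos_or_neg p with h | h
  · exact O.st_of_pos h h h h1 h2
  · exact O.st_of_neg h h h h2 h1

theorem st_of_b {x y : Rl L} {p q : L} (hp : O.pos p) (hq : O.neg q) (h : x p q) :
    O.st x y p q :=
  O.b_le _ _ _ (O.b_le_st x y p q ((O.b_iff _ _ _).2 ⟨hp, h, hq⟩))

theorem st_of_c {x y : Rl L} {p q : L} (hp : O.neg p) (hq : O.pos q) (h : y p q) :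
    O.st x y p q :=
  O.c_le _ _ _ (O.c_le_st x y p q ((O.c_iff _ _ _).2 ⟨hp, h, hq⟩))

theorem st_of_abd {x y : Rl L} {p q r s : L} (hp : O.pos p) (hq : O.pos q) (hr : O.neg r)
    (hs : O.neg s) (h1 : x p q) (h2 : y q r) (h3 : x r s) : O.st x y p s :=
  O.b_le _ _ _ (O.abd_le x y p s ⟨q, (O.a_iff _ _ _).2 ⟨hp, h1, hq⟩, r,
    (O.b_iff _ _ _).2 ⟨hq, h2, hr⟩, (O.d_iff _ _ _).2 ⟨hr, h3, hs⟩⟩)

theorem st_of_dca {x y : Rl L} {p q r s : L} (hp : O.neg p) (hq : O.neg q) (hr : O.pos r)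
    (hs : O.pos s) (h1 : y p q) (h2 : x q r) (h3 : y r s) : O.st x y p s := by
  rw [← O.flip_st]; exact O.flip.st_of_abd hp hq hr hs h1 h2 h3

theorem st_of_abca {x y : Rl L} {p q r s t : L} (hp : O.pos p) (hq : O.pos q) (hr : O.neg r)
    (hs : O.pos s) (ht : O.pos t) (h1 : x p q) (h2 : y q r) (h3 : x r s) (h4 : y s t) :
    O.st x y p t := by
  apply O.a_le
  rw [st_a]
  exact ⟨q, (O.a_iff _ _ _).2 ⟨hp, h1, hq⟩, s, Relation.ReflTransGen.single
    ⟨r, (O.b_iff _ _ _).2 ⟨hq, h2, hr⟩, (O.c_iff _ _ _).2 ⟨hr, h3, hs⟩⟩,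
    (O.a_iff _ _ _).2 ⟨hs, h4, ht⟩⟩

/-- the first edge of a path through a product -/
theorem st_first {x y : Rl L} {p q : L} (h : O.st x y p q) :
    (O.pos p ∧ ∃ m, x p m) ∨ (O.neg p ∧ ∃ m, y p m) := by
  rw [st_eq] at h
  rcases h with (h | h) | ⟨m, h | h, -⟩
  · rw [b_iff] at h; exact Or.inl ⟨h.1, _, h.2.1⟩
  · rw [c_iff] at h; exact Or.inr ⟨h.1, _, h.2.1⟩
  · rw [a_iff] at h; exact Or.inl ⟨h.1, _, h.2.1⟩
  · rw [d_iff] at h; exact Or.inr ⟨h.1, _, h.2.1⟩

/-- right-unique relations -/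
def Fn (x : Rl L) : Prop := ∀ p q r, x p q → x p r → q = r

theorem Fn.st {x y : Rl L} (hx : Fn x) (hy : Fn y) : Fn (O.st x y) := by
  have hM : Relator.RightUnique (O.mid x y) := by
    rintro p q r (h | h) (h' | h')
    · rw [b_iff] at h h'; exact hy _ _ _ h.2.1 h'.2.1
    · rw [b_iff] at h; rw [c_iff] at h'; exact (O.not_pos_neg h.1 h'.1).elim
    · rw [c_iff] at h; rw [b_iff] at h'; exact (O.not_pos_neg h'.1 h.1).elim
    · rw [c_iff] at h h'; exact hx _ _ _ h.2.1 h'.2.1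
  have hMO : ∀ p q r, O.mid x y p q → O.out x y p r → False := by
    rintro p q r (h | h) (h' | h')
    · rw [b_iff] at h; rw [a_iff] at h'
      have := hy _ _ _ h.2.1 h'.2.1; subst this; exact O.not_pos_neg h'.2.2 h.2.2
    · rw [b_iff] at h; rw [d_iff] at h'; exact O.not_pos_neg h.1 h'.1
    · rw [c_iff] at h; rw [a_iff] at h'; exact O.not_pos_neg h'.1 h.1
    · rw [c_iff] at h; rw [d_iff] at h'
      have := hx _ _ _ h.2.1 h'.2.1; subst this; exact O.not_pos_neg h.2.2 h'.2.2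
  have hO : Fn (O.out x y) := by
    rintro p q r (h | h) (h' | h')
    · rw [a_iff] at h h'; exact hy _ _ _ h.2.1 h'.2.1
    · rw [a_iff] at h; rw [d_iff] at h'; exact (O.not_pos_neg h.1 h'.1).elim
    · rw [d_iff] at h; rw [a_iff] at h'; exact (O.not_pos_neg h'.1 h.1).elim
    · rw [d_iff] at h h'; exact hx _ _ _ h.2.1 h'.2.1
  have hMs : Fn ((O.mid x y)∗ * O.out x y) := by
    rintro p q r ⟨m, h1, h2⟩ ⟨m', h1', h2'⟩
    have key : ∀ m m' q, Relation.ReflTransGen (O.mid x y) m m' → O.out x y m q → m = m' := by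
      intro m m' q h ho
      rcases h.cases_head with h | ⟨s, h, -⟩
      · exact h
      · exact (hMO _ _ _ h ho).elim
    rcases Relation.ReflTransGen.total_of_right_unique hM h1 h1' with h | h
    · have := key _ _ _ h h2; subst this; exact hO _ _ _ h2 h2'
    · have := key _ _ _ h h2'; subst this; exact hO _ _ _ h2 h2'
  intro p q r h h'
  rw [st_eq] at h h'
  rcases h with (h | h) | ⟨m, h | h, hm⟩ <;> rcases h' with (h' | h') | ⟨m', h' | h', hm'⟩ <;>
    simp only [a_iff, b_iff, c_iff, d_iff] at h h' <;>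
    first
    | exact (O.not_pos_neg h.1 h'.1).elim
    | exact (O.not_pos_neg h'.1 h.1).elim
    | exact hx _ _ _ h.2.1 h'.2.1
    | exact hy _ _ _ h.2.1 h'.2.1
    | (have := hx _ _ _ h.2.1 h'.2.1; subst this
       first
       | exact (O.not_pos_neg h.2.2 h'.2.2).elim
       | exact (O.not_pos_neg h'.2.2 h.2.2).elim
       | exact hMs _ _ _ hm hm')
    | (have := hy _ _ _ h.2.1 h'.2.1; subst this
       first
       | exact (O.not_pos_neg h.2.2 h'.2.2).elim
       | exact (O.not_pos_neg h'.2.2 h.2.2).elim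
       | exact hMs _ _ _ hm hm')

/-- backward invariants: `G0` on the left boundary, `G1` on the right boundary -/
def Resp (x : Rl L) (G0 G1 : L → Prop) : Prop :=
  ∀ p q, x p q → ((O.pos q → G1 q) ∧ (O.neg q → G0 q)) → ((O.pos p → G0 p) ∧ (O.neg p → G1 p))

theorem Resp.st {x y : Rl L} {G0 G1 G2 : L → Prop} (hx : O.Resp x G0 G1) (hy : O.Resp y G1 G2) :
    O.Resp (O.st x y) G0 G2 := by
  intro p q h hq
  have hout : ∀ m, O.out x y m q → G1 m := by
    rintro m (h | h)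
    · rw [a_iff] at h
      exact (hy _ _ h.2.1 ⟨hq.1, fun h' => (O.not_pos_neg h.2.2 h').elim⟩).1 h.1
    · rw [d_iff] at h
      exact (hx _ _ h.2.1 ⟨fun h' => (O.not_pos_neg h' h.2.2).elim, hq.2⟩).2 h.1
  have hmid : ∀ m m', O.mid x y m m' → G1 m' → G1 m := by
    rintro m m' (h | h) hm'
    · rw [b_iff] at h
      exact (hy _ _ h.2.1 ⟨fun h' => (O.not_pos_neg h' h.2.2).elim, fun _ => hm'⟩).1 h.1
    · rw [c_iff] at h
      exact (hx _ _ h.2.1 ⟨fun _ => hm', fun h' => (O.not_pos_neg h.2.2 h').elim⟩).2 h.1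
  have hstar : ∀ m, ((O.mid x y)∗ * O.out x y) m q → G1 m := by
    rintro m ⟨m', h1, h2⟩
    induction h1 using Relation.ReflTransGen.head_induction_on with
    | refl => exact hout _ h2
    | head h3 _ ih => exact hmid _ _ h3 ih
  rw [st_eq] at h
  rcases h with (h | h) | ⟨m, h | h, hm⟩
  · rw [b_iff] at h
    exact ⟨(hx _ _ h.2.1 ⟨fun h' => (O.not_pos_neg h' h.2.2).elim, hq.2⟩).1,
      fun h' => (O.not_pos_neg h.1 h').elim⟩
  · rw [c_iff] at h
    exact ⟨fun h' => (O.not_pos_neg h' h.1).elim,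
      (hy _ _ h.2.1 ⟨hq.1, fun h' => (O.not_pos_neg h.2.2 h').elim⟩).2⟩
  · rw [a_iff] at h
    exact ⟨(hx _ _ h.2.1 ⟨fun _ => hstar _ hm, fun h' => (O.not_pos_neg h.2.2 h').elim⟩).1,
      fun h' => (O.not_pos_neg h.1 h').elim⟩
  · rw [d_iff] at h
    exact ⟨fun h' => (O.not_pos_neg h' h.1).elim,
      (hy _ _ h.2.1 ⟨fun h' => (O.not_pos_neg h' h.2.2).elim, fun _ => hstar _ hm⟩).2⟩

theorem Resp.one (G : L → Prop) : O.Resp 1 G G := by
  intro p q h hq
  cases h
  exact hq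

end Ori

end Crest.Agent.R294
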