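import Crest.Agent.R294.Loc

/-!
Representations of local submonoids of a finite monoid by behaviours; generic localisation.
-/

set_option autoImplicit false
open Computability

namespace Crest.Agent.R294

universe u v w

section Mon
variable {T : Type v} [Monoid T]

/-- the local submonoid at `g` -/
def Loc (g x : T) : Prop := g * x = x ∧ x * g = x

theorem Loc.mul {g x y : T} (hx : Loc g x) (hy : Loc g y) : Loc g (x * y) :=
  ⟨by rw [← mul_assoc, hx.1], by rw [mul_assoc, hy.2]⟩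

theorem Loc.pow {g x : T} (hx : Loc g x) (n : ℕ) : Loc g (x ^ (n + 1)) := by
  induction n with
  | zero => simpa using hx
  | succ n ih => rw [pow_succ]; exact ih.mul hx

theorem Loc.trans {g q x : T} (hq : Loc g q) (hx : Loc q x) : Loc g x :=
  ⟨by rw [← hx.1, ← mul_assoc, hq.1], by rw [← hx.2, mul_assoc, hq.2]⟩

theorem loc_sandwich {q : T} (hq : q * q = q) (x : T) : Loc q (q * x * q) :=
  ⟨by rw [← mul_assoc, ← mul_assoc, hq], by rw [mul_assoc, hq]⟩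

theorem exists_idem_pow [Finite T] (x : T) : ∃ n, x ^ (n + 1) * x ^ (n + 1) = x ^ (n + 1) := by
  obtain ⟨i, j, hij, he⟩ := Finite.exists_ne_map_eq_of_infinite (fun n : ℕ => x ^ n)
  have key : ∀ i k, x ^ i = x ^ (i + k + 1) → ∃ n, x ^ (n + 1) * x ^ (n + 1) = x ^ (n + 1) := by
    intro i k h
    have h1 : ∀ m, x ^ (i + m * (k + 1)) = x ^ i := by
      intro m
      induction m with
      | zero => simp
      | succ m ih =>
        have : i + (m + 1) * (k + 1) = (i + k + 1) + m * (k + 1) := by ring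
        rw [this, pow_add, ← h, ← pow_add, ih]
    obtain ⟨n, hn⟩ : ∃ n, n + 1 = (i + 1) * (k + 1) := ⟨i * (k + 1) + k, by ring⟩
    obtain ⟨r, hr⟩ : ∃ r, n + 1 = i + r := ⟨i * k + k + 1, by rw [hn]; ring⟩
    refine ⟨n, ?_⟩
    have : n + 1 + (n + 1) = (i + (i + 1) * (k + 1)) + r := by omega
    rw [← pow_add, this, pow_add, h1, ← pow_add, hr]
  rcases lt_or_gt_of_ne hij with hlt | hlt
  · obtain ⟨k, rfl⟩ := Nat.exists_eq_add_of_lt hlt
    exact key i k he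
  · obtain ⟨k, rfl⟩ := Nat.exists_eq_add_of_lt hlt
    exact key j k he.symm

theorem pow_succ_idem {q : T} (hq : q * q = q) (n : ℕ) : q ^ (n + 1) = q := by
  induction n with
  | zero => simp
  | succ n ih => rw [pow_succ, ih, hq]

end Mon

open Ori

/-- A representation of the local submonoid at an idempotent. -/
structure Rep {L : Type u} (O : Ori (Rl L)) (T : Type v) [Monoid T] where
  g : T
  ψ : T → Rl L
  idem : g * g = g
  mul : ∀ x y, Loc g x → Loc g y → ψ (x * y) = O.st (ψ x) (ψ y)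
  supp : ∀ p q, ψ g p q → ψ g p p ∧ ψ g q q

namespace Rep
variable {L : Type u} {O : Ori (Rl L)} {T : Type v} [Monoid T] (ρ : Rep O T)

theorem loc_g : Loc ρ.g ρ.g := ⟨ρ.idem, ρ.idem⟩

theorem isE : O.IsE (ρ.ψ ρ.g) := ⟨by rw [← ρ.mul _ _ ρ.loc_g ρ.loc_g, ρ.idem], ρ.supp⟩

theorem sub' {q x : T} (hq : Loc ρ.g q) (hx : Loc q x) : Sub O (ρ.ψ q) (ρ.ψ x) :=
  ⟨by rw [← ρ.mul _ _ hq (hq.trans hx), hx.1], by rw [← ρ.mul _ _ (hq.trans hx) hq, hx.2]⟩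

theorem sub {x : T} (hx : Loc ρ.g x) : Sub O (ρ.ψ ρ.g) (ρ.ψ x) := ρ.sub' ρ.loc_g hx

theorem st_idem {q : T} (hq : q * q = q) (hl : Loc ρ.g q) : O.st (ρ.ψ q) (ρ.ψ q) = ρ.ψ q :=
  (ρ.sub' hl ⟨hq, hq⟩).left

/-- labels not surviving in `x` -/
def SS (x : T) : Set L := S (ρ.ψ ρ.g) (ρ.ψ x)
/-- number of classes -/
noncomputable def np (W : Set L) : ℕ := pts (ρ.ψ ρ.g) W
/-- number of oriented classes -/
noncomputable def nc (W : Set L) : ℕ := cnt O (ρ.ψ ρ.g) W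

theorem SS_mul {x y : T} (hx : Loc ρ.g x) (hy : Loc ρ.g y) : ρ.SS (x * y) ⊆ ρ.SS x ∪ ρ.SS y := by
  unfold SS; rw [ρ.mul _ _ hx hy]; exact S_st _ _ _

theorem SS_pow {x : T} (hx : Loc ρ.g x) (n : ℕ) : ρ.SS (x ^ (n + 1)) ⊆ ρ.SS x := by
  induction n with
  | zero => simp
  | succ n ih =>
    rw [pow_succ]
    exact (ρ.SS_mul (hx.pow n) hx).trans (Set.union_subset ih subset_rfl)

theorem le_of_SS_empty {x : T} (hx : Loc ρ.g x) (h : ρ.SS x = ∅) : ρ.ψ ρ.g ≤ ρ.ψ x := by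
  have h1 : dg (ρ.ψ ρ.g) ≤ ρ.ψ x := by
    rw [dg, Rl.diag_le]
    intro p hp
    by_contra h2
    have : p ∈ ρ.SS x := ⟨hp, h2⟩
    rw [h] at this; exact this
  calc ρ.ψ ρ.g = O.st (ρ.ψ ρ.g) (dg (ρ.ψ ρ.g)) := ρ.isE.e_dg.symm
    _ ≤ O.st (ρ.ψ ρ.g) (ρ.ψ x) := by gcongr
    _ = ρ.ψ x := (ρ.sub hx).left

variable [Finite L]

/-- localisation of a representation -/
def loc (q : T) (hq : q * q = q) (hl : Loc ρ.g q) : Rep O T where
  g := q
  ψ x := O.lz (ρ.ψ q) (ρ.ψ x)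
  idem := hq
  mul x y hx hy := by
    rw [lz_st (ρ.st_idem hq hl) (ρ.sub' hl hx).right (ρ.sub' hl hy).left,
      ρ.mul _ _ (hl.trans hx) (hl.trans hy)]
  supp := (lz_isE (ρ.st_idem hq hl)).supp

@[simp] theorem loc_g' (q : T) (hq : q * q = q) (hl : Loc ρ.g q) : (ρ.loc q hq hl).g = q := rfl

theorem loc_transfer {q : T} (hq : q * q = q) (hl : Loc ρ.g q) (B : Set L)
    (hB : ∀ m ∈ B, ρ.ψ ρ.g m m) : ∃ W, (ρ.loc q hq hl).np W ≤ ρ.np B ∧
      ∀ y, Loc ρ.g y → ρ.SS y ⊆ B → (ρ.loc q hq hl).SS (q * y * q) ⊆ W := by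
  obtain ⟨W, h1, h2⟩ := Ori.loc_transfer ρ.isE (ρ.st_idem hq hl) (ρ.sub hl) B hB
  refine ⟨W, h1, fun y hy hS => ?_⟩
  have := h2 _ hS
  rw [← ρ.mul _ _ hl hy, ← ρ.mul _ _ (hl.mul hy) hl] at this
  exact this

theorem small_step {q : T} (hq : q * q = q) (hl : Loc ρ.g q) (W : Set L) (hW : ρ.SS q ⊆ W) :
    ∃ W', 2 * (ρ.loc q hq hl).nc W' + ρ.nc (ρ.SS q) ≤ 2 * ρ.nc W ∧
      ∀ y, Loc ρ.g y → ρ.SS y ⊆ W → (ρ.loc q hq hl).SS (q * y * q) ⊆ W' := by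
  obtain ⟨W', h1, h2⟩ := Ori.small_step ρ.isE (ρ.st_idem hq hl) (ρ.sub hl) W hW
  refine ⟨W', h1, fun y hy hS => ?_⟩
  have := h2 _ hS
  rw [← ρ.mul _ _ hl hy, ← ρ.mul _ _ (hl.mul hy) hl] at this
  exact this

theorem conj {u u' x : T} (hu : Loc ρ.g u) (hu' : Loc ρ.g u') (hx : Loc ρ.g x)
    (h : u * u' = ρ.g) : ρ.np (ρ.SS (u * x * u')) ≤ ρ.np (ρ.SS x) := by
  have := transfer_one (X := ρ.ψ u) (Z := ρ.ψ u') ρ.isE ρ.isE (ρ.sub hu).right
    (by rw [← ρ.mul _ _ hu hu', h]) (ρ.ψ x)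
  rw [← ρ.mul _ _ hu hx, ← ρ.mul _ _ (hu.mul hx) hu'] at this
  exact this

end Rep

section Lift
variable {L : Type u} {O : Ori (Rl L)} {T : Type v} [Monoid T] {V : Type w}

/-- order reflection along idempotents -/
def Faith (ρ : Rep O T) (Lift : T → Rl V → Prop) : Prop :=
  ∀ f x Φ X, f * f = f → Loc ρ.g f → Loc f x → Lift f Φ → Lift x X → ρ.ψ f ≤ ρ.ψ x → X ≤ Φ

theorem Faith.loc [Finite L] {ρ : Rep O T} {Lift : T → Rl V → Prop} (h : Faith ρ Lift) {q : T}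
    (hq : q * q = q) (hl : Loc ρ.g q) : Faith (ρ.loc q hq hl) Lift := by
  intro f x Φ X hf h1 h2 h3 h4 h5
  exact h f x Φ X hf (hl.trans h1) h2 h3 h4
    (lz_le_reflect (ρ.st_idem hq hl) (ρ.sub' hl h1) (ρ.sub' hl (Loc.trans h1 h2)) h5)

/-- multiplicative correspondences -/
def LMul (Lift : T → Rl V → Prop) : Prop :=
  ∀ x y X Y, Lift x X → Lift y Y → Lift (x * y) (X * Y)

theorem LMul.pow {Lift : T → Rl V → Prop} (h : LMul Lift) {x : T} {X : Rl V} (hx : Lift x X)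
    (n : ℕ) : Lift (x ^ (n + 1)) (X ^ (n + 1)) := by
  induction n with
  | zero => simpa using hx
  | succ n ih => rw [pow_succ, pow_succ X]; exact h _ _ _ _ ih hx

theorem LMul.exists_idem [Finite T] {Lift : T → Rl V → Prop} (h : LMul Lift) {x : T} {X : Rl V}
    (hx : Lift x X) (hX : X * X = X) :
    ∃ n, x ^ (n + 1) * x ^ (n + 1) = x ^ (n + 1) ∧ Lift (x ^ (n + 1)) X := by
  obtain ⟨n, hn⟩ := exists_idem_pow x
  refine ⟨n, hn, ?_⟩
  have := h.pow hx n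
  rwa [pow_succ_idem hX] at this

/-- the partial identity on a finite set of vertices -/
def NN (U : Finset V) : Rl V := Rl.diag (U : Set V)

theorem NN_mul (U : Finset V) : NN U * NN U = NN U := Rl.diag_mul_diag _

/-- a single pair -/
def EE (i j : V) : Rl V := fun a b => a = i ∧ b = j

/-- generic situation over the vertex set `U` -/
structure Gen (ρ : Rep O T) (Lift : T → Rl V → Prop) (U : Finset V) : Prop where
  mul : LMul Lift
  surj : ∀ X, NN U * X * NN U = X → ∃ x, Lift x X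
  one : Lift ρ.g (NN U)
  loc : ∀ x X, Lift x X → Loc ρ.g x
  gen : ∀ k, Lift k (NN U) → ∃ n, k ^ (n + 1) = ρ.g
  faith : Faith ρ Lift

theorem exists_gen [Finite L] [Finite T] (ρ : Rep O T) {Lift : T → Rl V → Prop} (hm : LMul Lift)
    (hf : Faith ρ Lift) {Q : Rl V} {U : Finset V} (h1 : Lift ρ.g Q) (hQ : Q * Q = Q)
    (hN : NN U * Q * NN U = NN U) (hs : ∀ X, NN U * X * NN U = X → ∃ x, Lift x X) :
    ∃ (F : T) (hF : F * F = F) (hl : Loc ρ.g F) (Lift' : T → Rl V → Prop),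
      Gen (ρ.loc F hF hl) Lift' U ∧ ∀ x X, Loc ρ.g x → Lift x X → Q * X * Q = X →
        Lift' (F * x * F) (NN U * X * NN U) := by
  have hNN := NN_mul U
  have hNN' : ∀ X, NN U * (NN U * X) = NN U * X := fun X => by rw [← mul_assoc, hNN]
  have hQ' : ∀ X, Q * (Q * X) = Q * X := fun X => by rw [← mul_assoc, hQ]
  have hN' : ∀ X, NN U * (Q * (NN U * X)) = NN U * X := fun X => by
    rw [← mul_assoc, ← mul_assoc, hN]
  let L1 : T → Rl V → Prop := fun x X => Loc ρ.g x ∧ NN U * X * NN U = X ∧ Lift x (Q * X * Q)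
  have m1 : LMul L1 := by
    rintro x y X Y ⟨a1, a2, a3⟩ ⟨b1, b2, b3⟩
    refine ⟨a1.mul b1, ?_, ?_⟩
    · rw [← a2, ← b2]; simp only [mul_assoc, hNN', hNN]
    · have := hm _ _ _ _ a3 b3
      convert this using 1
      rw [← a2, ← b2]; simp only [mul_assoc, hNN', hQ', hN']
  have s1 : ∀ X, NN U * X * NN U = X → ∃ x, L1 x X := by
    intro X hX
    obtain ⟨x, hx⟩ := hs X hX
    exact ⟨ρ.g * x * ρ.g, loc_sandwich ρ.idem x, hX, hm _ _ _ _ (hm _ _ _ _ h1 hx) h1⟩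
  have hne : ∃ F, F * F = F ∧ L1 F (NN U) := by
    obtain ⟨x, hx⟩ := s1 (NN U) (by rw [hNN, hNN])
    obtain ⟨n, h2, h3⟩ := m1.exists_idem hx hNN
    exact ⟨_, h2, h3⟩
  obtain ⟨F, ⟨hF, hF1⟩, hmin⟩ := Set.exists_min_image {F | F * F = F ∧ L1 F (NN U)}
    (fun F => {y | Loc F y}.ncard) (Set.toFinite _) hne
  refine ⟨F, hF, hF1.1, fun x X => Loc F x ∧ L1 x X, ⟨?_, ?_, ?_, ?_, ?_, ?_⟩, ?_⟩
  · rintro x y X Y ⟨a1, a2⟩ ⟨b1, b2⟩
    exact ⟨a1.mul b1, m1 _ _ _ _ a2 b2⟩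
  · intro X hX
    obtain ⟨x, hx⟩ := s1 X hX
    refine ⟨F * x * F, loc_sandwich hF x, ?_⟩
    have := m1 _ _ _ _ (m1 _ _ _ _ hF1 hx) hF1
    rwa [hX] at this
  · exact ⟨⟨hF, hF⟩, hF1⟩
  · exact fun x X h => h.1
  · rintro k ⟨a1, a2⟩
    obtain ⟨n, h2, h3⟩ := m1.exists_idem a2 hNN
    refine ⟨n, ?_⟩
    have h4 := a1.pow n
    have h5 : {y | Loc (k ^ (n + 1)) y} = {y | Loc F y} :=
      Set.eq_of_subset_of_ncard_le (fun y hy => h4.trans hy) (hmin _ ⟨h2, h3⟩) (Set.toFinite _)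
    have h6 : F ∈ {y | Loc (k ^ (n + 1)) y} := by rw [h5]; exact ⟨hF, hF⟩
    show k ^ (n + 1) = F
    rw [← h4.2]; exact h6.1
  · rintro f x Φ X a1 a2 a3 ⟨-, -, b1, b2⟩ ⟨-, -, c1, c2⟩ a4
    have := hf.loc hF hF1.1 f x _ _ a1 a2 a3 b2 c2 a4
    calc X = NN U * (Q * X * Q) * NN U := by
          rw [← c1]; simp only [mul_assoc, hN']; rw [← mul_assoc (NN U) Q, hN]
      _ ≤ NN U * (Q * Φ * Q) * NN U := by gcongr
      _ = Φ := by
          rw [← b1]; simp only [mul_assoc, hN']; rw [← mul_assoc (NN U) Q, hN]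
  · intro x X hx hX hQX
    refine ⟨loc_sandwich hF x, (hF1.1.mul hx).mul hF1.1, ?_, ?_⟩
    · simp only [mul_assoc, hNN', hNN]
    · have := hm _ _ _ _ (hm _ _ _ _ hF1.2.2 hX) hF1.2.2
      convert this using 1
      conv_lhs => rw [← hQX]
      simp only [mul_assoc]

end Lift

end Crest.Agent.R294
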